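import Vale.Agent.P358.Channel
import Mathlib.Topology.Order.Compact
import Mathlib.LinearAlgebra.Matrix.Charpoly.Coeff

/-! # The Holevo quantity of the tensor power -/

namespace Vale.Agent.P358

open Matrix Real Set
open scoped ComplexOrder

noncomputable section

theorem vn_eq {ι : Type} [Fintype ι] [DecidableEq ι] (M : Matrix ι ι ℂ) :
    vnEntropy M = ent M / Real.log 2 := by
  unfold vnEntropy ent; split_ifs <;> simp

theorem chiOne_eq (g v q : ℝ) :
    chiOne g v q * Real.log 2 =
      negMulLog (tout g v q) + negMulLog (1 - tout g v q) - phi g v q := by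
  have h : Real.log 2 ≠ 0 := (Real.log_pos one_lt_two).ne'
  unfold chiOne h2 phi
  rw [Real.binEntropy_eq_negMulLog_add_negMulLog_one_sub,
    Real.binEntropy_eq_negMulLog_add_negMulLog_one_sub,
    show 1 - (1 - √(rad g v q)) / 2 = (1 + √(rad g v q)) / 2 by ring]
  field_simp
  ring

theorem tpow_sum_smul (g v : ℝ) {n : ℕ} {α : Type} [Fintype α] (c : α → ℂ)
    (ρ : α → Matrix (Fin n → Fin 2) (Fin n → Fin 2) ℂ) :
    tpow g v n (∑ a, c a • ρ a) = ∑ a, c a • tpow g v n (ρ a) := by
  ext i j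
  simp only [tpow, Matrix.sum_apply, Matrix.smul_apply, smul_eq_mul, Finset.mul_sum]
  refine ((Finset.sum_congr rfl fun i' _ => Finset.sum_comm).trans Finset.sum_comm).trans ?_
  refine Finset.sum_congr rfl fun a _ => Finset.sum_congr rfl fun i' _ =>
    Finset.sum_congr rfl fun j' _ => by ring

theorem psd_decomp {ι : Type} [Fintype ι] [DecidableEq ι] {ρ : Matrix ι ι ℂ} (h : ρ.PosSemidef) :
    ∃ φ : ι → ι → ℂ, ρ = ∑ j, vecMulVec (φ j) (star (φ j)) := by
  obtain ⟨U, hU, hU', hd⟩ := herm_decomp h.1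
  refine ⟨fun j i => (√(h.1.eigenvalues j) : ℂ) * U i j, ?_⟩
  conv_lhs => rw [hd]
  ext a b
  simp only [Matrix.mul_apply, Matrix.sum_apply, vecMulVec_apply, Pi.star_apply, conjTranspose_apply,
    diagonal_apply, mul_ite, mul_zero, Finset.sum_ite_eq', Finset.mem_univ, if_true, star_mul,
    Complex.star_def, Complex.conj_ofReal]
  refine Finset.sum_congr rfl fun j _ => ?_
  have : ((√(h.1.eigenvalues j) : ℝ) : ℂ) * ((√(h.1.eigenvalues j) : ℝ) : ℂ)
      = ((h.1.eigenvalues j : ℝ) : ℂ) := by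
    rw [← Complex.ofReal_mul, Real.mul_self_sqrt (h.eigenvalues_nonneg j)]
  linear_combination (-(U a j * (starRingEnd ℂ) (U b j))) * this

theorem tpow_psd {g v : ℝ} (hg : g ∈ Icc (0 : ℝ) 1) (hv : v ∈ Icc (0 : ℝ) 1) {n : ℕ}
    {ρ : Matrix (Fin n → Fin 2) (Fin n → Fin 2) ℂ} (h : ρ.PosSemidef) :
    (tpow g v n ρ).PosSemidef := by
  obtain ⟨φ, hφ⟩ := psd_decomp h
  have e := tpow_sum_smul g v (fun _ => (1 : ℂ)) (fun j => vecMulVec (φ j) (star (φ j)))
  simp only [one_smul] at e
  rw [hφ, e]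
  exact posSemidef_sum _ fun j _ => by
    rw [tpow_outer hg hv]; exact posSemidef_self_mul_conjTranspose _

/-- Excited population of a site, for a mixed state. -/
def pop {n : ℕ} (ρ : Matrix (Fin n → Fin 2) (Fin n → Fin 2) ℂ) (l : Fin n) (b : Fin 2) : ℝ :=
  ∑ i, if i l = b then (ρ i i).re else 0

theorem pop_add {n : ℕ} (ρ : Matrix (Fin n → Fin 2) (Fin n → Fin 2) ℂ) (l : Fin n) :
    pop ρ l 0 + pop ρ l 1 = rtr ρ := by
  rw [pop, pop, ← Finset.sum_add_distrib, rtr_eq_sum_diag]
  refine Finset.sum_congr rfl fun i _ => ?_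
  rcases (Fin.exists_fin_two.mp ⟨i l, rfl⟩ : i l = 0 ∨ i l = 1) with h | h <;> simp [h]

theorem pop_nonneg {n : ℕ} {ρ : Matrix (Fin n → Fin 2) (Fin n → Fin 2) ℂ} (h : ρ.PosSemidef)
    (l : Fin n) (b : Fin 2) : 0 ≤ pop ρ l b :=
  Finset.sum_nonneg fun i _ => by
    split_ifs
    · exact (Complex.nonneg_iff.mp h.diag_nonneg).1
    · exact le_rfl

theorem gap_lower_mixed {g v : ℝ} (hg : g ∈ Icc (0 : ℝ) 1) (hv : v ∈ Icc (0 : ℝ) 1) {n : ℕ}
    {ρ : Matrix (Fin n → Fin 2) (Fin n → Fin 2) ℂ} (h : ρ.PosSemidef) :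
    ∑ l, pf g v (pop ρ l 0) (pop ρ l 1) ≤ gap (tpow g v n ρ) := by
  obtain ⟨φ, hφ⟩ := psd_decomp h
  have e := tpow_sum_smul g v (fun _ => (1 : ℂ)) (fun j => vecMulVec (φ j) (star (φ j)))
  simp only [one_smul] at e
  have hm : ∀ l b, pop ρ l b = ∑ j, mass (φ j) l b := fun l b => by
    simp only [pop, mass]
    rw [Finset.sum_comm]
    refine Finset.sum_congr rfl fun i _ => ?_
    split_ifs with hb
    · rw [hφ, Matrix.sum_apply, Complex.re_sum]
      refine Finset.sum_congr rfl fun j _ => ?_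
      simp [vecMulVec_apply, Complex.normSq_apply]
    · simp
  simp only [hm]
  rw [hφ, e]
  refine le_trans ?_ (gap_sum Finset.univ _ fun j => by
    rw [tpow_outer hg hv]; exact posSemidef_self_mul_conjTranspose _)
  refine le_trans ?_ (Finset.sum_le_sum fun j _ => gap_lower hg hv (φ j))
  rw [Finset.sum_comm (γ := Fin n → Fin 2)]
  exact Finset.sum_le_sum fun l _ => pf_sum hg hv _ _ _ (fun j => mass_nonneg _ l 0)
    (fun j => mass_nonneg _ l 1)

theorem subadd {n : ℕ} (P : (Fin n → Fin 2) → ℝ) (hP : ∀ i, 0 ≤ P i) (h1 : ∑ i, P i = 1) :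
    ∑ i, negMulLog (P i) ≤ ∑ l, ∑ c : Fin 2, negMulLog (∑ i, if i l = c then P i else 0) := by
  set m : Fin n → Fin 2 → ℝ := fun l c => ∑ i, if i l = c then P i else 0 with hm
  have hm1 : ∀ l, ∑ c, m l c = 1 := fun l => by
    simp only [hm]
    rw [Finset.sum_comm, ← h1]
    exact Finset.sum_congr rfl fun i _ => by simp
  have hge : ∀ l i, P i ≤ m l (i l) := fun l i => by
    have := Finset.single_le_sum (f := fun j => if j l = i l then P j else 0)
      (fun j _ => by split_ifs <;> simp [hP]) (Finset.mem_univ i)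
    simpa [hm] using this
  have hterm : ∀ i, negMulLog (P i) + ∑ l, P i * log (m l (i l)) ≤ (∏ l, m l (i l)) - P i := by
    intro i
    have hR : 0 ≤ ∏ l, m l (i l) := Finset.prod_nonneg fun l _ => (hP i).trans (hge l i)
    rcases eq_or_lt_of_le (hP i) with h | h
    · rw [← h]; simp [hR]
    · have hpos : ∀ l, 0 < m l (i l) := fun l => lt_of_lt_of_le h (hge l i)
      have hl := Real.log_le_sub_one_of_pos
        (show 0 < (∏ l, m l (i l)) / P i from div_pos (Finset.prod_pos fun l _ => hpos l) h)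
      rw [Real.log_div (Finset.prod_ne_zero_iff.mpr fun l _ => (hpos l).ne') h.ne',
        Real.log_prod fun l _ => (hpos l).ne'] at hl
      have := mul_le_mul_of_nonneg_left hl (hP i)
      have e : P i * ((∏ l, m l (i l)) / P i - 1) = (∏ l, m l (i l)) - P i := by
        field_simp
      rw [e] at this
      rw [← Finset.mul_sum, negMulLog]
      linarith
  have h := Finset.sum_le_sum (s := Finset.univ) fun i _ => hterm i
  rw [Finset.sum_add_distrib, Finset.sum_sub_distrib, h1, ← Fintype.prod_sum] at h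
  simp only [hm1, Finset.prod_const_one, sub_self] at h
  have e : ∀ l, ∑ i, P i * log (m l (i l)) = -∑ c, negMulLog (m l c) := fun l => by
    simp only [negMulLog, neg_mul, Finset.sum_neg_distrib, neg_neg]
    conv_rhs => arg 2; ext c; arg 1; simp only [hm]
    simp only [Finset.sum_mul, ite_mul, zero_mul]
    rw [Finset.sum_comm]
    exact Finset.sum_congr rfl fun i _ => by simp [hm]
  rw [Finset.sum_comm, Finset.sum_congr rfl fun l _ => e l, Finset.sum_neg_distrib] at h
  linarith

theorem out_marginal (g v : ℝ) {n : ℕ} (ρ : Matrix (Fin n → Fin 2) (Fin n → Fin 2) ℂ)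
    (l0 : Fin n) :
    pop (tpow g v n ρ) l0 1 = g * v * pop ρ l0 0 + (1 - g + g * v) * pop ρ l0 1 := by
  classical
  have h2 : ∀ a b : Fin 2, ∑ c, gadc g v (Matrix.single a b 1) c c = if a = b then 1 else 0 := by
    intro a b
    fin_cases a <;> fin_cases b <;> simp [gadc, Matrix.single_apply] <;> ring
  have key : ∀ i' j' : Fin n → Fin 2,
      ∑ i : Fin n → Fin 2, (if i l0 = 1 then ∏ l, gadc g v (Matrix.single (i' l) (j' l) 1) (i l) (i l) else 0)
        = if i' = j' then gadc g v (Matrix.single (i' l0) (i' l0) 1) 1 1 else 0 := by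
    intro i' j'
    let F : Fin n → Fin 2 → ℂ := fun l c =>
      if l = l0 ∧ c = 0 then 0 else gadc g v (Matrix.single (i' l) (j' l) 1) c c
    have e : ∀ i : Fin n → Fin 2,
        (if i l0 = 1 then ∏ l, gadc g v (Matrix.single (i' l) (j' l) 1) (i l) (i l) else 0)
          = ∏ l, F l (i l) := by
      intro i
      rcases (Fin.exists_fin_two.mp ⟨i l0, rfl⟩ : i l0 = 0 ∨ i l0 = 1) with h | h
      · rw [if_neg (by simp [h])]
        exact (Finset.prod_eq_zero (Finset.mem_univ l0) (by simp [F, h])).symm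
      · rw [if_pos h]
        refine Finset.prod_congr rfl fun l _ => ?_
        by_cases hl : l = l0
        · subst hl; simp [F, h]
        · simp [F, hl]
    simp only [e]
    rw [← Fintype.prod_sum]
    by_cases hij : i' = j'
    · subst hij
      rw [if_pos rfl, Finset.prod_eq_single l0]
      · simp [F]
      · intro l _ hl
        simp [F, hl, h2]
      · simp
    · rw [if_neg hij]
      obtain ⟨l, hl⟩ := Function.ne_iff.mp hij
      refine Finset.prod_eq_zero (Finset.mem_univ l) ?_
      by_cases hl0 : l = l0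
      · subst hl0
        have hcc : ∀ b, ¬(i' l = b ∧ j' l = b) := fun b h => hl (h.1.trans h.2.symm)
        simp [F, gadc, Matrix.single_apply, hcc]
      · simp [F, hl0, h2, hl]
  have hp : pop (tpow g v n ρ) l0 1 =
      (∑ i : Fin n → Fin 2, if i l0 = 1 then tpow g v n ρ i i else 0).re := by
    rw [pop, Complex.re_sum]
    exact Finset.sum_congr rfl fun i _ => by split_ifs <;> simp
  have hc : (∑ i : Fin n → Fin 2, if i l0 = 1 then tpow g v n ρ i i else 0)
      = ∑ i', gadc g v (Matrix.single (i' l0) (i' l0) 1) 1 1 * ρ i' i' := by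
    calc (∑ i : Fin n → Fin 2, if i l0 = 1 then tpow g v n ρ i i else 0)
        = ∑ i' : Fin n → Fin 2, ∑ j' : Fin n → Fin 2, (∑ i : Fin n → Fin 2, if i l0 = 1 then
            ∏ l, gadc g v (Matrix.single (i' l) (j' l) 1) (i l) (i l) else 0) * ρ i' j' := by
          simp only [tpow, Finset.sum_mul]
          rw [Finset.sum_congr rfl fun i' _ => Finset.sum_comm (γ := Fin n → Fin 2),
            Finset.sum_comm]
          refine Finset.sum_congr rfl fun i _ => ?_
          split_ifs <;> simp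
      _ = _ := by simp [key]
  rw [hp, hc, Complex.re_sum, pop, pop, Finset.mul_sum, Finset.mul_sum, ← Finset.sum_add_distrib]
  refine Finset.sum_congr rfl fun i _ => ?_
  rcases (Fin.exists_fin_two.mp ⟨i l0, rfl⟩ : i l0 = 0 ∨ i l0 = 1) with h | h <;>
    simp [h, gadc, Matrix.single_apply]

theorem upper {g v : ℝ} (hg : g ∈ Icc (0 : ℝ) 1) (hv : v ∈ Icc (0 : ℝ) 1) {c : ℝ}
    (hc : ∀ q ∈ Icc (0 : ℝ) 1, chiOne g v q ≤ c) {n : ℕ} {x : ℝ} (hx : x ∈ holevoValues g v n) :
    x ≤ (n : ℝ) * c := by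
  obtain ⟨k, p, ρ, hp0, hp1, hρ, rfl⟩ := hx
  have hlog : 0 < Real.log 2 := Real.log_pos one_lt_two
  set R := ∑ a, (p a : ℂ) • ρ a with hR
  have hpsd : ∀ a, ((p a : ℂ) • ρ a).PosSemidef := fun a =>
    (hρ a).1.smul (by exact_mod_cast hp0 a)
  have hRp : R.PosSemidef := posSemidef_sum _ fun a _ => hpsd a
  have hR1 : rtr R = 1 := by
    simp [hR, rtr, Matrix.trace_sum, Matrix.trace_smul, (hρ _).2, hp1]
  have hN := tpow_psd hg hv hRp
  have hN1 : rtr (tpow g v n R) = 1 := by rw [rtr, tpow_trace]; exact hR1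
  have hlin : ∑ a, (p a : ℂ) • tpow g v n (ρ a) = tpow g v n R := (tpow_sum_smul g v _ _).symm
  set q : Fin n → ℝ := fun l => pop R l 1 with hq
  have hq0 : ∀ l, pop R l 0 = 1 - q l := fun l => by
    have := pop_add R l; rw [hR1] at this; simp only [hq]; linarith
  have hqI : ∀ l, q l ∈ Icc (0 : ℝ) 1 := fun l =>
    ⟨pop_nonneg hRp l 1, by linarith [pop_nonneg hRp l 0, hq0 l]⟩
  -- lower bound for the average output entropy
  have hlow : ∑ l, phi g v (q l) ≤ ∑ a, p a * ent (tpow g v n (ρ a)) := by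
    have e1 : ∀ a, p a * ent (tpow g v n (ρ a)) = gap (tpow g v n ((p a : ℂ) • ρ a)) := fun a => by
      have e := tpow_sum_smul g v (fun _ : Unit => (p a : ℂ)) (fun _ => ρ a)
      simp only [Finset.univ_unique, Finset.sum_singleton] at e
      rw [e, gap_smul (tpow_psd hg hv (hρ a).1).1, gap, rtr, tpow_trace, (hρ a).2]
      simp
    simp only [e1]
    refine le_trans ?_ (Finset.sum_le_sum fun a _ => gap_lower_mixed hg hv (hpsd a))
    rw [Finset.sum_comm]
    refine Finset.sum_le_sum fun l _ => ?_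
    refine le_trans (le_of_eq ?_) (pf_sum hg hv _ _ _ (fun a => pop_nonneg (hpsd a) l 0)
      (fun a => pop_nonneg (hpsd a) l 1))
    have e2 : ∀ b, ∑ a, pop ((p a : ℂ) • ρ a) l b = pop R l b := fun b => by
      simp only [pop, hR]
      rw [Finset.sum_comm]
      refine Finset.sum_congr rfl fun i _ => ?_
      split_ifs <;> simp [Matrix.sum_apply, Complex.re_sum]
    rw [e2, e2, hq0, pf]
    simp [hq]
  -- upper bound for the entropy of the average
  have hup : ent (tpow g v n R) ≤
      ∑ l, (negMulLog (tout g v (q l)) + negMulLog (1 - tout g v (q l))) := by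
    refine (ent_le_diag hN).trans ((subadd _ (fun i => (Complex.nonneg_iff.mp hN.diag_nonneg).1)
      (by rw [← rtr_eq_sum_diag, hN1])).trans (le_of_eq ?_))
    refine Finset.sum_congr rfl fun l _ => ?_
    rw [Fin.sum_univ_two]
    have e1 : (∑ i, if i l = 1 then (tpow g v n R i i).re else 0) = tout g v (q l) := by
      change pop (tpow g v n R) l 1 = _
      rw [out_marginal, hq0, tout]
      ring
    have e0 : (∑ i, if i l = 0 then (tpow g v n R i i).re else 0) = 1 - tout g v (q l) := by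
      have := pop_add (tpow g v n R) l
      rw [hN1] at this
      unfold pop at this
      linarith
    rw [e0, e1, add_comm]
  rw [hlin, vn_eq]
  simp only [vn_eq, ← mul_div_assoc, ← Finset.sum_div]
  rw [← sub_div, div_le_iff₀ hlog]
  calc ent (tpow g v n R) - ∑ a, p a * ent (tpow g v n (ρ a))
      ≤ ∑ l, (negMulLog (tout g v (q l)) + negMulLog (1 - tout g v (q l)) - phi g v (q l)) := by
        rw [Finset.sum_sub_distrib]; linarith
    _ = ∑ l, chiOne g v (q l) * Real.log 2 := by simp only [chiOne_eq]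
    _ ≤ ∑ _l : Fin n, c * Real.log 2 := Finset.sum_le_sum fun l _ =>
        mul_le_mul_of_nonneg_right (hc _ (hqI l)) hlog.le
    _ = _ := by simp; ring

/-- Tensor product of one-site matrices. -/
def tens {n : ℕ} (A : Fin n → Matrix (Fin 2) (Fin 2) ℂ) :
    Matrix (Fin n → Fin 2) (Fin n → Fin 2) ℂ := fun i j => ∏ l, A l (i l) (j l)

theorem tens_mul {n : ℕ} (A B : Fin n → Matrix (Fin 2) (Fin 2) ℂ) :
    tens A * tens B = tens (fun l => A l * B l) := by
  ext i j
  simp only [tens, Matrix.mul_apply, Fintype.prod_sum, Finset.prod_mul_distrib]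

theorem tens_one {n : ℕ} : tens (fun _ : Fin n => (1 : Matrix (Fin 2) (Fin 2) ℂ)) = 1 := by
  ext i j
  by_cases h : i = j
  · subst h; simp [tens]
  · obtain ⟨l, hl⟩ := Function.ne_iff.mp h
    simp only [tens, Matrix.one_apply, if_neg h]
    exact Finset.prod_eq_zero (Finset.mem_univ l) (if_neg hl)

theorem tens_conjTranspose {n : ℕ} (A : Fin n → Matrix (Fin 2) (Fin 2) ℂ) :
    (tens A)ᴴ = tens (fun l => (A l)ᴴ) := by
  ext i j; simp [tens]

theorem tens_diag {n : ℕ} (d : Fin n → Fin 2 → ℂ) :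
    tens (fun l => diagonal (d l)) = diagonal (fun i => ∏ l, d l (i l)) := by
  ext i j
  by_cases h : i = j
  · subst h; simp [tens]
  · obtain ⟨l, hl⟩ := Function.ne_iff.mp h
    simp only [tens, Matrix.diagonal_apply, if_neg h]
    exact Finset.prod_eq_zero (Finset.mem_univ l) (if_neg hl)

theorem sum_negMulLog_prod : ∀ {n : ℕ} (d : Fin n → Fin 2 → ℝ), (∀ l, ∑ c, d l c = 1) →
    ∑ i : Fin n → Fin 2, negMulLog (∏ l, d l (i l)) = ∑ l, ∑ c, negMulLog (d l c) := by
  intro n
  induction n with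
  | zero => intro d _; simp
  | succ n ih =>
    intro d hd
    have ih' := ih (fun l => d l.succ) (fun l => hd l.succ)
    have h1 : ∑ x : Fin n → Fin 2, ∏ l, d l.succ (x l) = 1 := by
      rw [← Fintype.prod_sum]; simp [hd]
    rw [sum_cons, Fin.sum_univ_succ, ← ih']
    simp only [Fin.prod_univ_succ, Fin.cons_zero, Fin.cons_succ, negMulLog_mul,
      Finset.sum_add_distrib, ← Finset.mul_sum, ← Finset.sum_mul, h1]
    rw [Fin.sum_univ_two]
    have := hd 0
    rw [Fin.sum_univ_two] at this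
    linear_combination (∑ x : Fin n → Fin 2, negMulLog (∏ l, d l.succ (x l))) * this

theorem ent_tens {n : ℕ} (A : Fin n → Matrix (Fin 2) (Fin 2) ℂ) (hA : ∀ l, (A l).PosSemidef)
    (h1 : ∀ l, rtr (A l) = 1) : ent (tens A) = ∑ l, ent (A l) := by
  choose U hU hU' hd using fun l => herm_decomp (hA l).1
  have hH : (tens A).IsHermitian := by
    unfold Matrix.IsHermitian
    rw [tens_conjTranspose]
    simp only [(hA _).1.eq]
  rw [ent_of_charpoly hH (fun i : Fin n → Fin 2 => ∏ l, (hA l).1.eigenvalues (i l))]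
  · rw [sum_negMulLog_prod]
    · exact Finset.sum_congr rfl fun l _ => by rw [ent, dif_pos (hA l).1]
    · intro l; rw [← rtr_eq_sum_eig, h1]
  · have e : tens A = tens U * diagonal (fun i => ((∏ l, (hA l).1.eigenvalues (i l) : ℝ) : ℂ))
        * tens (fun l => (U l)ᴴ) := by
      simp only [Complex.ofReal_prod]
      rw [← tens_diag (fun l c => ((hA l).1.eigenvalues c : ℂ)), tens_mul, tens_mul]
      exact congrArg tens (funext hd)
    rw [e]
    refine charpoly_conj_diag _ _ ?_ _
    rw [tens_mul, funext hU']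
    exact tens_one

theorem tpow_tens (g v : ℝ) {n : ℕ} (A : Fin n → Matrix (Fin 2) (Fin 2) ℂ) :
    tpow g v n (tens A) = tens (fun l => gadc g v (A l)) := by
  ext i j
  have e : ∀ l, gadc g v (A l) (i l) (j l)
      = ∑ a, ∑ b, gadc g v (Matrix.single a b 1) (i l) (j l) * A l a b := fun l => by
    generalize i l = x
    generalize j l = y
    fin_cases x <;> fin_cases y <;> simp [gadc, Fin.sum_univ_two, Matrix.single_apply] <;> ring
  simp only [tpow, tens, e, Fintype.prod_sum, Finset.prod_mul_distrib]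

/-- The two optimal one-site inputs. -/
def optVec (q : ℝ) (a : Fin 2) : Fin 2 → ℂ :=
  ![(√(1 - q) : ℂ), (if a = 0 then (√q : ℂ) else -(√q : ℂ))]

/-- Their density matrices. -/
def optState (q : ℝ) (a : Fin 2) : Matrix (Fin 2) (Fin 2) ℂ :=
  vecMulVec (optVec q a) (star (optVec q a))

theorem optState_eq {q : ℝ} (hq : q ∈ Icc (0 : ℝ) 1) (a : Fin 2) :
    optState q a =
      !![((1 - q : ℝ) : ℂ), (if a = 0 then 1 else -1) * ((√(1 - q) * √q : ℝ) : ℂ);
         (if a = 0 then 1 else -1) * ((√(1 - q) * √q : ℝ) : ℂ), ((q : ℝ) : ℂ)] := by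
  have a1 : ((√(1 - q) : ℝ) : ℂ) * ((√(1 - q) : ℝ) : ℂ) = ((1 - q : ℝ) : ℂ) := by
    rw [← Complex.ofReal_mul, Real.mul_self_sqrt (by linarith [hq.2])]
  have a2 : ((√q : ℝ) : ℂ) * ((√q : ℝ) : ℂ) = (q : ℂ) := by
    rw [← Complex.ofReal_mul, Real.mul_self_sqrt hq.1]
  push_cast at a1 a2
  ext i j
  fin_cases a <;> fin_cases i <;> fin_cases j <;>
    simp [optState, optVec, vecMulVec_apply, a1, a2] <;> ring

theorem ent_gadc_opt {g v : ℝ} (hg : g ∈ Icc (0 : ℝ) 1) {q : ℝ}
    (hq : q ∈ Icc (0 : ℝ) 1) (a : Fin 2) : ent (gadc g v (optState q a)) = phi g v q := by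
  set s : ℝ := if a = 0 then 1 else -1 with hs
  have hs2 : s * s = 1 := by rw [hs]; split_ifs <;> norm_num
  set t := tout g v q with ht
  set o : ℝ := √(1 - g) * (s * (√(1 - q) * √q)) with ho
  have e : gadc g v (optState q a) = !![((1 - t : ℝ) : ℂ), (o : ℂ); (o : ℂ), (t : ℂ)] := by
    rw [optState_eq hq]
    ext i j
    fin_cases i <;> fin_cases j <;> simp [gadc, ho, hs, ht, tout] <;>
      (try split_ifs) <;> push_cast <;> ring
  have h : (gadc g v (optState q a)).IsHermitian := by
    rw [e]; ext i j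
    fin_cases i <;> fin_cases j <;> simp
  have hR : 0 ≤ rad g v q := by
    have : 0 ≤ (1 - g) * q * (1 - q) :=
      mul_nonneg (mul_nonneg (by linarith [hg.2]) hq.1) (by linarith [hq.2])
    unfold rad; nlinarith [sq_nonneg (1 - 2 * tout g v q)]
  rw [ent_of_charpoly h ![(1 + √(rad g v q)) / 2, (1 - √(rad g v q)) / 2]]
  · rw [Fin.sum_univ_two]; rfl
  · rw [e, Matrix.charpoly_fin_two, Fin.prod_univ_two]
    have ho2 : o ^ 2 = (1 - g) * ((1 - q) * q) := by
      rw [ho, mul_pow, mul_pow, mul_pow, Real.sq_sqrt (by linarith [hg.2]),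
        Real.sq_sqrt (by linarith [hq.2]), Real.sq_sqrt hq.1, sq s, hs2, one_mul]
    have hS : √(rad g v q) ^ 2 = (1 - 2 * t) ^ 2 + 4 * (1 - g) * q * (1 - q) := by
      rw [Real.sq_sqrt hR, rad, ht]
    have htr : ((1 + √(rad g v q)) / 2 : ℝ) + (1 - √(rad g v q)) / 2 = (1 - t) + t := by ring
    have hdet : ((1 + √(rad g v q)) / 2 : ℝ) * ((1 - √(rad g v q)) / 2) = (1 - t) * t - o * o := by
      linear_combination (-(1 / 4 : ℝ)) * hS + ho2
    have htr' := congrArg Complex.ofReal htr
    have hdet' := congrArg Complex.ofReal hdet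
    push_cast at htr' hdet'
    simp only [Matrix.trace_fin_two, Matrix.det_fin_two, Matrix.of_apply, Matrix.cons_val',
      Matrix.cons_val_zero, Matrix.cons_val_one, Matrix.cons_val_fin_one]
    push_cast
    rw [← htr', ← hdet', map_add, map_mul]
    ring

theorem achieve {g v : ℝ} (hg : g ∈ Icc (0 : ℝ) 1) (hv : v ∈ Icc (0 : ℝ) 1) {q : ℝ}
    (hq : q ∈ Icc (0 : ℝ) 1) (n : ℕ) : (n : ℝ) * chiOne g v q ∈ holevoValues g v n := by
  have hlog : Real.log 2 ≠ 0 := (Real.log_pos one_lt_two).ne'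
  let e := Fintype.equivFin (Fin n → Fin 2)
  have hpsd1 : ∀ a, (optState q a).PosSemidef := fun a => posSemidef_vecMulVec_self_star _
  have htr1 : ∀ a, (optState q a).trace = 1 := fun a => by
    rw [optState_eq hq, Matrix.trace_fin_two]; simp
  have hvec : ∀ a : Fin n → Fin 2, tens (fun l => optState q (a l)) =
      vecMulVec (fun i => ∏ l, optVec q (a l) (i l))
        (star fun i => ∏ l, optVec q (a l) (i l)) := by
    intro a; ext i j
    simp [tens, optState, vecMulVec_apply, Finset.prod_mul_distrib]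
  have hden : ∀ a : Fin n → Fin 2, IsDensity (tens (fun l => optState q (a l))) := by
    intro a
    refine ⟨by rw [hvec]; exact posSemidef_vecMulVec_self_star _, ?_⟩
    have : ∀ A : Fin n → Matrix (Fin 2) (Fin 2) ℂ, (tens A).trace = ∏ l, (A l).trace := fun A => by
      simp only [Matrix.trace, Matrix.diag, tens, Fintype.prod_sum]
    rw [this]; simp [htr1]
  set w : ℝ := ((1 : ℝ) / 2) ^ n with hw
  refine ⟨_, fun _ => w, fun b => tens (fun l => optState q (e.symm b l)), fun _ => by positivity,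
    ?_, fun b => hden _, ?_⟩
  · simp [hw]
  have hent : ∀ b, ent (tpow g v n (tens (fun l => optState q (e.symm b l))))
      = (n : ℝ) * phi g v q := by
    intro b
    rw [tpow_tens]
    have hP : ∀ l, (gadc g v (optState q (e.symm b l))).PosSemidef := fun l => by
      have := tpow_psd hg hv (posSemidef_vecMulVec_self_star
        (fun i : Fin 1 → Fin 2 => optVec q (e.symm b l) (i 0)))
      have e1 : vecMulVec (fun i : Fin 1 → Fin 2 => optVec q (e.symm b l) (i 0))
          (star fun i : Fin 1 → Fin 2 => optVec q (e.symm b l) (i 0))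
          = tens (fun _ : Fin 1 => optState q (e.symm b l)) := by
        ext i j; simp [tens, optState, vecMulVec_apply]
      rw [e1, tpow_tens] at this
      have h2 := this.submatrix (fun c : Fin 2 => fun _ : Fin 1 => c)
      convert h2 using 1
      ext x y; simp [tens]
    rw [ent_tens _ hP]
    · simp [ent_gadc_opt hg hq]
    · intro l
      have := htr1 (e.symm b l)
      rw [Matrix.trace_fin_two] at this
      have h3 : (gadc g v (optState q (e.symm b l))).trace = 1 := by
        rw [Matrix.trace_fin_two, ← this]; simp [gadc]; ring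
      simp [rtr, h3]
  set t := tout g v q with ht
  have havg : ∑ b, ((w : ℝ) : ℂ) • tpow g v n (tens (fun l => optState q (e.symm b l)))
      = diagonal (fun i : Fin n → Fin 2 =>
          ((∏ l, (![1 - t, t] (i l)) : ℝ) : ℂ)) := by
    rw [Equiv.sum_comp e.symm (fun a => ((w : ℝ) : ℂ) • tpow g v n (tens (fun l => optState q (a l))))]
    simp only [tpow_tens]
    have h : ∑ a : Fin n → Fin 2, ((w : ℝ) : ℂ) • tens (fun l => gadc g v (optState q (a l)))
        = tens (fun _ : Fin n => ∑ c : Fin 2, ((1 / 2 : ℝ) : ℂ) • gadc g v (optState q c)) := by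
      ext i j
      simp only [tens, Matrix.sum_apply, Matrix.smul_apply, smul_eq_mul, Fintype.prod_sum]
      refine Finset.sum_congr rfl fun a _ => ?_
      rw [Finset.prod_mul_distrib, Finset.prod_const, Finset.card_univ, Fintype.card_fin, hw]
      push_cast
      rfl
    rw [h]
    have h1 : ∑ c : Fin 2, ((1 / 2 : ℝ) : ℂ) • gadc g v (optState q c)
        = diagonal (fun c => ((![1 - t, t] c : ℝ) : ℂ)) := by
      simp only [optState_eq hq]
      ext i j
      fin_cases i <;> fin_cases j <;> simp [Fin.sum_univ_two, gadc, ht, tout] <;> ring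
    rw [h1, tens_diag]
    simp [Complex.ofReal_prod]
  rw [havg, vn_eq]
  simp only [vn_eq, hent]
  rw [ent_of_charpoly (by simp [Matrix.IsHermitian, diagonal_conjTranspose])
    (fun i : Fin n → Fin 2 => ∏ l, (![1 - t, t] (i l))) (by rw [charpoly_diagonal])]
  rw [sum_negMulLog_prod _ (fun l => by simp)]
  rw [← Finset.sum_mul]
  have hsum : ∑ _b : Fin (Fintype.card (Fin n → Fin 2)), w = 1 := by simp [hw]
  rw [hsum]
  simp only [Fin.sum_univ_two, Matrix.cons_val_zero, Matrix.cons_val_one, Finset.sum_const,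
    Finset.card_univ, Fintype.card_fin, nsmul_eq_mul, Matrix.cons_val_fin_one]
  have := chiOne_eq g v q
  rw [← ht] at this
  field_simp
  linear_combination (n : ℝ) * this

theorem chi_cont (g v : ℝ) : Continuous (chiOne g v) := by
  have := rad_cont g v
  unfold chiOne h2 tout
  fun_prop

end

end Vale.Agent.P358
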