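import Vale.Agent.P358.Defs
import Mathlib.Analysis.Convex.Deriv

/-! # Convexity of the output entropy of pure inputs -/

namespace Vale.Agent.P358

open Real Set

noncomputable section

/-- Output entropy in nats of a pure input with excited population q. -/
def phi (g v q : ℝ) : ℝ :=
  negMulLog ((1 + √(rad g v q)) / 2) + negMulLog ((1 - √(rad g v q)) / 2)

theorem rad_eq (g v q : ℝ) :
    rad g v q = 1 - 4 * g * v * (1 - v) - 4 * g * (1 - g) * (q - v) ^ 2 := by
  unfold rad tout; ring

theorem rad_cont (g v : ℝ) : Continuous (rad g v) := by unfold rad tout; fun_prop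

theorem phi_cont (g v : ℝ) : Continuous (phi g v) := by
  unfold phi
  have := rad_cont g v
  fun_prop

theorem log_sub_ge {r : ℝ} (h0 : 0 ≤ r) (h1 : r < 1) : 2 * r ≤ log (1 + r) - log (1 - r) := by
  have hx : 0 ≤ 2 * r / (1 - r) := div_nonneg (by linarith) (by linarith)
  have h := Real.le_log_one_add_of_nonneg hx
  have e1 : 2 * (2 * r / (1 - r)) / (2 * r / (1 - r) + 2) = 2 * r := by
    have : (1 - r) ≠ 0 := by linarith
    field_simp
    ring
  have e2 : 1 + 2 * r / (1 - r) = (1 + r) / (1 - r) := by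
    have : (1 - r) ≠ 0 := by linarith
    field_simp
    ring
  rw [e1, e2, Real.log_div (by linarith) (by linarith)] at h
  exact h

theorem phi_convex {g v : ℝ} (hg : g ∈ Icc (0 : ℝ) 1) (hv : v ∈ Icc (0 : ℝ) 1) :
    ConvexOn ℝ (Icc (0 : ℝ) 1) (phi g v) := by
  obtain ⟨hg0, hg1⟩ := hg
  obtain ⟨hv0, hv1⟩ := hv
  by_cases hdeg : g * (1 - g) = 0
  · have e : ∀ q, phi g v q = phi g v v := fun q => by
      have e1 : ∀ x, rad g v x = 1 - 4 * g * v * (1 - v) := fun x => by
        rw [rad_eq]; linear_combination -4 * (x - v) ^ 2 * hdeg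
      unfold phi; rw [e1 q, e1 v]
    exact (convexOn_const (phi g v v) (convex_Icc 0 1)).congr fun q _ => (e q).symm
  have hgp : 0 < g := lt_of_le_of_ne hg0 fun h => hdeg (by rw [← h]; ring)
  have hgp1 : g < 1 := lt_of_le_of_ne hg1 fun h => hdeg (by rw [h]; ring)
  set k : ℝ := 4 * g * (1 - g) with hk
  set M : ℝ := 1 - 4 * g * v * (1 - v) with hM
  have hk0 : 0 < k := by
    have : 0 < 1 - g := by linarith
    positivity
  have hM1 : M ≤ 1 := by
    have : 0 ≤ g * v * (1 - v) := by have : 0 ≤ 1 - v := by linarith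
                                     positivity
    rw [hM]; nlinarith
  have hrad : ∀ q, rad g v q = M - k * (q - v) ^ 2 := fun q => by rw [rad_eq, hM, hk]
  set r : ℝ → ℝ := fun q => √(rad g v q) with hr
  set L : ℝ → ℝ := fun x => log (1 + x) - log (1 - x) with hL
  have facts : ∀ q ∈ Ioo (0 : ℝ) 1, 0 < rad g v q ∧ 0 < r q ∧ r q < 1 := by
    intro q hq
    have h1 : 0 < rad g v q := by
      have h0 : 0 < (1 - g) * q * (1 - q) :=
        mul_pos (mul_pos (by linarith) hq.1) (by linarith [hq.2])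
      unfold rad
      nlinarith [sq_nonneg (1 - 2 * tout g v q)]
    refine ⟨h1, Real.sqrt_pos.mpr h1, ?_⟩
    rw [hr]
    simp only
    rw [Real.sqrt_lt' one_pos, one_pow, hrad]
    rcases eq_or_ne q v with h | h
    · have hgv : 0 < g * v * (1 - v) := by
        rw [← h]
        exact mul_pos (mul_pos hgp hq.1) (by linarith [hq.2])
      rw [hM]; nlinarith [sq_nonneg (q - v)]
    · have : 0 < (q - v) ^ 2 := by
        have := sub_ne_zero.mpr h; positivity
      nlinarith
  let f1 : ℝ → ℝ := fun q => k * (q - v) * L (r q) / (2 * r q)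
  let f2 : ℝ → ℝ := fun q =>
    k / 2 * (L (r q) / r q -
      k * (q - v) ^ 2 / (r q) ^ 2 * (2 / (1 - r q ^ 2) - L (r q) / r q))
  have hd : ∀ q ∈ Ioo (0 : ℝ) 1, HasDerivAt r (-(k * (q - v)) / r q) q := by
    intro q hq
    obtain ⟨h1, h2, _⟩ := facts q hq
    have hR : HasDerivAt (fun x => M - k * (x - v) ^ 2) (-(k * (2 * (q - v)))) q := by
      have h := (((hasDerivAt_id q).sub_const v).pow 2).const_mul k |>.const_sub M
      simpa using h
    have h := hR.sqrt (by rw [← hrad]; exact h1.ne')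
    have e : r = fun x => √(M - k * (x - v) ^ 2) := by funext x; simp only [hr, hrad]
    rw [e]
    refine h.congr_deriv ?_
    field_simp
  refine convexOn_of_hasDerivWithinAt2_nonneg (f' := f1) (f'' := f2) (convex_Icc 0 1)
    (phi_cont g v).continuousOn ?_ ?_ ?_
  · intro q hq
    rw [interior_Icc] at hq
    obtain ⟨h1, h2, h3⟩ := facts q hq
    have hp1 : (1 + r q) / 2 ≠ 0 := by positivity
    have hm1 : (1 - r q) / 2 ≠ 0 := by
      apply div_ne_zero <;> linarith
    have ha := (Real.hasDerivAt_negMulLog hp1).comp q (((hd q hq).const_add 1).div_const 2)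
    have hb := (Real.hasDerivAt_negMulLog hm1).comp q (((hd q hq).const_sub 1).div_const 2)
    refine ((ha.add hb).congr_deriv ?_).hasDerivWithinAt
    simp only [f1, hL]
    rw [Real.log_div (by linarith) two_ne_zero, Real.log_div (by linarith) two_ne_zero]
    field_simp
    ring
  · intro q hq
    rw [interior_Icc] at hq
    obtain ⟨h1, h2, h3⟩ := facts q hq
    have hLd : HasDerivAt (fun x => L (r x))
        ((1 / (1 + r q) + 1 / (1 - r q)) * (-(k * (q - v)) / r q)) q := by
      have ha := ((hd q hq).const_add 1).log (by positivity)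
      have hb := ((hd q hq).const_sub 1).log (by linarith)
      refine (ha.sub hb).congr_deriv ?_
      ring
    have hx : HasDerivAt (fun x => k * (x - v)) k q := by
      simpa using ((hasDerivAt_id q).sub_const v).const_mul k
    have h := (hx.mul hLd).div ((hd q hq).const_mul 2) (by positivity)
    refine (h.congr_deriv ?_).hasDerivWithinAt
    simp only [f2]
    have h4 : 1 - r q ≠ 0 := by linarith
    have h5 : 1 + r q ≠ 0 := by positivity
    have h6 : 1 - r q ^ 2 = (1 - r q) * (1 + r q) := by ring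
    rw [h6]
    simp only [Pi.mul_apply]
    field_simp
    ring
  · intro q hq
    rw [interior_Icc] at hq
    obtain ⟨h1, h2, h3⟩ := facts q hq
    simp only [f2]
    refine mul_nonneg (by linarith) ?_
    have hr2 : r q ^ 2 = M - k * (q - v) ^ 2 := by
      rw [← hrad, hr]; exact Real.sq_sqrt h1.le
    have hM0 : 0 < M := by nlinarith [sq_nonneg (q - v)]
    have hLr : 2 ≤ L (r q) / r q := by
      rw [le_div_iff₀ h2, hL]; exact log_sub_ge h2.le h3
    have h1r : 0 < 1 - r q ^ 2 := by nlinarith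
    have hkey : k * (q - v) ^ 2 * (2 / (1 - r q ^ 2)) ≤ M * (L (r q) / r q) := by
      calc k * (q - v) ^ 2 * (2 / (1 - r q ^ 2)) ≤ 2 * M := by
            rw [← mul_div_assoc, div_le_iff₀ h1r]
            nlinarith [mul_nonneg (sq_nonneg (r q)) (sub_nonneg.mpr hM1)]
        _ ≤ _ := by nlinarith
    rw [sub_nonneg, div_mul_eq_mul_div, div_le_iff₀ (by positivity)]
    nlinarith

/-- Perspective of `phi`. -/
def pf (g v w0 w1 : ℝ) : ℝ := (w0 + w1) * phi g v (w1 / (w0 + w1))

theorem pf_add {g v : ℝ} (hg : g ∈ Icc (0 : ℝ) 1) (hv : v ∈ Icc (0 : ℝ) 1) {a b c d : ℝ}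
    (ha : 0 ≤ a) (hb : 0 ≤ b) (hc : 0 ≤ c) (hd : 0 ≤ d) :
    pf g v (a + c) (b + d) ≤ pf g v a b + pf g v c d := by
  rcases eq_or_lt_of_le (add_nonneg ha hb) with h | h
  · obtain ⟨rfl, rfl⟩ : a = 0 ∧ b = 0 := ⟨by linarith, by linarith⟩
    simp [pf]
  rcases eq_or_lt_of_le (add_nonneg hc hd) with h' | h'
  · obtain ⟨rfl, rfl⟩ : c = 0 ∧ d = 0 := ⟨by linarith, by linarith⟩
    simp [pf]
  have hs : 0 < (a + c) + (b + d) := by linarith
  have hm : ∀ x y : ℝ, 0 ≤ x → 0 ≤ y → 0 < x + y → y / (x + y) ∈ Icc (0 : ℝ) 1 := fun x y hx hy hxy =>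
    ⟨div_nonneg hy hxy.le, (div_le_one hxy).mpr (by linarith)⟩
  have := (phi_convex hg hv).2 (hm a b ha hb h) (hm c d hc hd h')
    (show 0 ≤ (a + b) / ((a + c) + (b + d)) by positivity)
    (show 0 ≤ (c + d) / ((a + c) + (b + d)) by positivity) (by field_simp; ring)
  simp only [smul_eq_mul] at this
  have e : (a + b) / ((a + c) + (b + d)) * (b / (a + b)) + (c + d) / ((a + c) + (b + d)) * (d / (c + d))
      = (b + d) / ((a + c) + (b + d)) := by
    field_simp
  rw [e] at this
  have h2 := mul_le_mul_of_nonneg_left this hs.le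
  unfold pf
  refine le_trans h2 (le_of_eq ?_)
  field_simp

theorem pf_sum {g v : ℝ} (hg : g ∈ Icc (0 : ℝ) 1) (hv : v ∈ Icc (0 : ℝ) 1) {α : Type}
    (s : Finset α) (a b : α → ℝ) (ha : ∀ i, 0 ≤ a i) (hb : ∀ i, 0 ≤ b i) :
    pf g v (∑ i ∈ s, a i) (∑ i ∈ s, b i) ≤ ∑ i ∈ s, pf g v (a i) (b i) := by
  classical
  induction s using Finset.induction_on with
  | empty => simp [pf]
  | insert i s hi ih =>
    simp only [Finset.sum_insert hi]
    exact (pf_add hg hv (ha i) (hb i) (Finset.sum_nonneg fun j _ => ha j)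
      (Finset.sum_nonneg fun j _ => hb j)).trans (by linarith)

end

end Vale.Agent.P358
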