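import Vale.Agent.P358.Main
import Vale.Agent.P358.Convex

/-! # The tensor power of the channel and the additive lower bound -/

namespace Vale.Agent.P358

open Matrix Real Set
open scoped ComplexOrder

noncomputable section

/-- Kraus operators. -/
def kr (g v : ℝ) (k : Fin 4) : Matrix (Fin 2) (Fin 2) ℝ :=
  ![!![√(1 - v), 0; 0, √(1 - v) * √(1 - g)],
    !![0, √(1 - v) * √g; 0, 0],
    !![√v * √(1 - g), 0; 0, √v],
    !![0, 0; √v * √g, 0]] k

/-- Kraus operators of the tensor power. -/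
def krn (g v : ℝ) {n : ℕ} (k : Fin n → Fin 4) (i i' : Fin n → Fin 2) : ℝ :=
  ∏ l, kr g v (k l) (i l) (i' l)

/-- Matrix whose Gram matrix is the output of a rank-one input. -/
def PhiMat (g v : ℝ) {n : ℕ} (φ : (Fin n → Fin 2) → ℂ) :
    Matrix (Fin n → Fin 2) (Fin n → Fin 4) ℂ :=
  fun i k => ∑ i', (krn g v k i i' : ℂ) * φ i'

theorem gadc_single {g v : ℝ} (hg : g ∈ Icc (0 : ℝ) 1) (hv : v ∈ Icc (0 : ℝ) 1) (a b c d : Fin 2) :
    gadc g v (Matrix.single a b 1) c d = ∑ k, ((kr g v k c a * kr g v k d b : ℝ) : ℂ) := by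
  obtain ⟨hg0, hg1⟩ := hg
  obtain ⟨hv0, hv1⟩ := hv
  have e1 : ∀ x : ℝ, 0 ≤ x → ((√x : ℝ) : ℂ) * ((√x : ℝ) : ℂ) = (x : ℂ) := fun x hx => by
    rw [← Complex.ofReal_mul, Real.mul_self_sqrt hx]
  have a1 := e1 (1 - v) (by linarith)
  have a2 := e1 (1 - g) (by linarith)
  have a3 := e1 g hg0
  have a4 := e1 v hv0
  push_cast at a1 a2
  fin_cases a <;> fin_cases b <;> fin_cases c <;> fin_cases d <;>
    simp [gadc, kr, Fin.sum_univ_four, Matrix.single_apply] <;>
    grind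

theorem tpow_outer {g v : ℝ} (hg : g ∈ Icc (0 : ℝ) 1) (hv : v ∈ Icc (0 : ℝ) 1) {n : ℕ}
    (φ ψ : (Fin n → Fin 2) → ℂ) :
    tpow g v n (vecMulVec φ (star ψ)) = PhiMat g v φ * (PhiMat g v ψ)ᴴ := by
  classical
  ext i j
  have h1 : ∀ i' j' : Fin n → Fin 2,
      (∏ l, gadc g v (Matrix.single (i' l) (j' l) 1) (i l) (j l)) * vecMulVec φ (star ψ) i' j'
        = ∑ k : Fin n → Fin 4,
          ((krn g v k i i' : ℂ) * φ i') * star ((krn g v k j j' : ℂ) * ψ j') := by
    intro i' j'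
    simp only [gadc_single hg hv, Fintype.prod_sum, Finset.sum_mul, vecMulVec_apply, Pi.star_apply]
    refine Finset.sum_congr rfl fun k _ => ?_
    simp only [star_mul, Complex.star_def, Complex.conj_ofReal, krn]
    push_cast
    rw [Finset.prod_mul_distrib]
    ring
  have h2 : ∀ k : Fin n → Fin 4,
      ∑ i', ∑ j', ((krn g v k i i' : ℂ) * φ i') * star ((krn g v k j j' : ℂ) * ψ j')
        = PhiMat g v φ i k * (PhiMat g v ψ)ᴴ k j := by
    intro k
    rw [conjTranspose_apply, PhiMat, PhiMat, star_sum, Finset.sum_mul_sum]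
  rw [Matrix.mul_apply, ← Finset.sum_congr rfl fun k _ => h2 k]
  simp only [tpow, h1]
  rw [Finset.sum_congr rfl fun i' _ => Finset.sum_comm (s := (Finset.univ : Finset (Fin n → Fin 2)))
    (t := (Finset.univ : Finset (Fin n → Fin 4))), Finset.sum_comm]

theorem tpow_trace (g v : ℝ) {n : ℕ} (ρ : Matrix (Fin n → Fin 2) (Fin n → Fin 2) ℂ) :
    (tpow g v n ρ).trace = ρ.trace := by
  classical
  have h2 : ∀ a b : Fin 2, ∑ c, gadc g v (Matrix.single a b 1) c c = if a = b then 1 else 0 := by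
    intro a b
    fin_cases a <;> fin_cases b <;> simp [gadc, Matrix.single_apply] <;> ring
  have hp : ∀ i' j' : Fin n → Fin 2,
      ∑ i : Fin n → Fin 2, ∏ l, gadc g v (Matrix.single (i' l) (j' l) 1) (i l) (i l)
        = if i' = j' then 1 else 0 := by
    intro i' j'
    rw [← Fintype.prod_sum (fun l c => gadc g v (Matrix.single (i' l) (j' l) 1) c c)]
    simp only [h2, Finset.prod_boole, Finset.mem_univ, true_implies]
    simp [funext_iff]
  simp only [Matrix.trace, Matrix.diag, tpow]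
  rw [Finset.sum_comm]
  refine Finset.sum_congr rfl fun i' _ => ?_
  rw [Finset.sum_comm]
  simp only [← Finset.sum_mul, hp]
  simp

theorem rtr_phimat {g v : ℝ} (hg : g ∈ Icc (0 : ℝ) 1) (hv : v ∈ Icc (0 : ℝ) 1) {n : ℕ}
    (φ : (Fin n → Fin 2) → ℂ) : rtr (PhiMat g v φ * (PhiMat g v φ)ᴴ) = nsq φ := by
  rw [← tpow_outer hg hv, rtr, tpow_trace, trace_vecMulVec, nsq_eq, dotProduct_comm]

theorem gap_fromBlocks_diag {ι κ : Type} [Fintype ι] [DecidableEq ι] [Fintype κ] [DecidableEq κ]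
    {P : Matrix ι ι ℂ} {Q : Matrix κ κ ℂ} (hP : P.IsHermitian) (hQ : Q.IsHermitian) :
    gap (fromBlocks P 0 0 Q) = gap P + gap Q
      + (negMulLog (rtr P) + negMulLog (rtr Q) - negMulLog (rtr P + rtr Q)) := by
  have e : rtr (fromBlocks P 0 0 Q) = rtr P + rtr Q := by
    simp [rtr, Matrix.trace, Fintype.sum_sum_type]
  rw [gap, gap, gap, ent_blockDiag hP hQ, e]
  ring

theorem binent_pair {X Y P Q : ℝ} (h : (X = P ∧ Y = Q) ∨ (X = Q ∧ Y = P)) :
    negMulLog X + negMulLog Y = negMulLog P + negMulLog Q := by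
  rcases h with ⟨rfl, rfl⟩ | ⟨rfl, rfl⟩ <;> ring

theorem phi_deg {g v q : ℝ} (h : (1 - g) * q * (1 - q) = 0) :
    phi g v q = negMulLog (tout g v q) + negMulLog (1 - tout g v q) := by
  have e : rad g v q = (1 - 2 * tout g v q) ^ 2 := by
    unfold rad; linear_combination 4 * h
  unfold phi
  rw [e, Real.sqrt_sq_eq_abs]
  rcases abs_choice (1 - 2 * tout g v q) with h' | h' <;> rw [h']
  · exact binent_pair (Or.inr ⟨by ring, by ring⟩)
  · exact binent_pair (Or.inl ⟨by ring, by ring⟩)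

theorem ne_split (x y : ℝ) {s : ℝ} (hs : s ≠ 0) :
    negMulLog x + negMulLog y - negMulLog (x + y) =
      (x + y) * (negMulLog (x / s) + negMulLog (y / s)) - (x + y) * negMulLog ((x + y) / s)
        + 0 * s ∨ s ≠ x + y := by
  by_cases h : s = x + y
  · left
    subst h
    rw [div_self hs, negMulLog_one]
    have hx : x = x / (x + y) * (x + y) := by field_simp
    have hy : y = y / (x + y) * (x + y) := by field_simp
    conv_lhs => rw [show negMulLog x = negMulLog (x / (x + y) * (x + y)) by rw [← hx],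
      show negMulLog y = negMulLog (y / (x + y) * (x + y)) by rw [← hy],
      negMulLog_mul, negMulLog_mul]
    field_simp
    ring
  · exact Or.inr h

/-- One-site inequality. -/
theorem gap_step {g v : ℝ} (hg : g ∈ Icc (0 : ℝ) 1) (hv : v ∈ Icc (0 : ℝ) 1) {ι μ : Type}
    [Fintype ι] [DecidableEq ι] [Fintype μ] [DecidableEq μ] (F0 F1 : Matrix ι μ ℂ) :
    gap (F0 * F0ᴴ) + gap (F1 * F1ᴴ) + pf g v (rtr (F0 * F0ᴴ)) (rtr (F1 * F1ᴴ)) ≤
      gap (fromBlocks
        (((1 - g * v : ℝ) : ℂ) • (F0 * F0ᴴ) + ((g * (1 - v) : ℝ) : ℂ) • (F1 * F1ᴴ))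
        ((√(1 - g) : ℂ) • (F0 * F1ᴴ)) ((√(1 - g) : ℂ) • (F1 * F0ᴴ))
        (((g * v : ℝ) : ℂ) • (F0 * F0ᴴ) + ((1 - g + g * v : ℝ) : ℂ) • (F1 * F1ᴴ))) := by
  obtain ⟨hg0, hg1⟩ := hg
  obtain ⟨hv0, hv1⟩ := hv
  have hG0 := posSemidef_self_mul_conjTranspose F0
  have hG1 := posSemidef_self_mul_conjTranspose F1
  set w0 := rtr (F0 * F0ᴴ) with hw0
  set w1 := rtr (F1 * F1ᴴ) with hw1
  have hw0n : 0 ≤ w0 := rtr_nonneg hG0
  have hw1n : 0 ≤ w1 := rtr_nonneg hG1
  have psd : ∀ (c : ℝ), 0 ≤ c → ∀ {G : Matrix ι ι ℂ}, G.PosSemidef → ((c : ℂ) • G).PosSemidef :=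
    fun c hc _ hG => hG.smul (by exact_mod_cast hc)
  have gvn : 0 ≤ g * v := mul_nonneg hg0 hv0
  have gv1 : 0 ≤ g * (1 - v) := mul_nonneg hg0 (by linarith)
  have gv2 : 0 ≤ 1 - g * v := by nlinarith
  have gv3 : 0 ≤ 1 - g + g * v := by linarith
  by_cases hdeg : g = 1 ∨ w0 = 0 ∨ w1 = 0
  · have z : ∀ (F G : Matrix ι μ ℂ), rtr (F * Fᴴ) = 0 → F * Gᴴ = 0 := fun F G h => by
      have h0 : (F * Fᴴ).trace = 0 := Complex.ext h
        (Complex.nonneg_iff.mp (posSemidef_self_mul_conjTranspose F).trace_nonneg).2.symm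
      rw [trace_mul_conjTranspose_self_eq_zero_iff] at h0
      rw [h0, Matrix.zero_mul]
    have zc : (√(1 - g) : ℂ) • (F0 * F1ᴴ) = 0 ∧ (√(1 - g) : ℂ) • (F1 * F0ᴴ) = 0 := by
      rcases hdeg with h | h | h
      · subst h; simp
      · have h' := z F0 F1 h
        have h'' : F1 * F0ᴴ = 0 := by
          have := congrArg Matrix.conjTranspose h'
          simpa using this
        simp [h', h'']
      · have h' := z F1 F0 h
        have h'' : F0 * F1ᴴ = 0 := by
          have := congrArg Matrix.conjTranspose h'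
          simpa using this
        simp [h', h'']
    rw [zc.1, zc.2, gap_fromBlocks_diag ((psd _ gv2 hG0).add (psd _ gv1 hG1)).1
      ((psd _ gvn hG0).add (psd _ gv3 hG1)).1]
    have b1 := gap_add (psd _ gv2 hG0) (psd _ gv1 hG1)
    have b2 := gap_add (psd _ gvn hG0) (psd _ gv3 hG1)
    rw [gap_smul hG0.1, gap_smul hG1.1] at b1 b2
    simp only [rtr_add, rtr_smul, ← hw0, ← hw1]
    have key : pf g v w0 w1 = negMulLog ((1 - g * v) * w0 + g * (1 - v) * w1)
        + negMulLog (g * v * w0 + (1 - g + g * v) * w1)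
        - negMulLog ((1 - g * v) * w0 + g * (1 - v) * w1
          + (g * v * w0 + (1 - g + g * v) * w1)) := by
      rcases eq_or_lt_of_le (add_nonneg hw0n hw1n) with h | h
      · obtain ⟨e0, e1⟩ : w0 = 0 ∧ w1 = 0 := ⟨by linarith, by linarith⟩
        simp [pf, e0, e1]
      · set x := (1 - g * v) * w0 + g * (1 - v) * w1 with hx
        set y := g * v * w0 + (1 - g + g * v) * w1 with hy
        have hxy : x + y = w0 + w1 := by rw [hx, hy]; ring
        rcases ne_split x y h.ne' with e | e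
        · rw [e, hxy, div_self h.ne', negMulLog_one, pf, phi_deg]
          · have e2 : tout g v (w1 / (w0 + w1)) = y / (w0 + w1) := by
              rw [hy, tout]; field_simp; ring
            have e3 : 1 - tout g v (w1 / (w0 + w1)) = x / (w0 + w1) := by
              rw [e2, one_sub_div h.ne', ← hxy]; congr 1; ring
            rw [e3, e2]; ring
          · rcases hdeg with h' | h' | h'
            · rw [h']; ring
            · rw [h', zero_add, div_self (by linarith : w1 ≠ 0)]; ring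
            · rw [h']; simp
        · exact absurd hxy.symm e
    linarith
  push Not at hdeg
  obtain ⟨hne, h0ne, h1ne⟩ := hdeg
  have hgl : g < 1 := lt_of_le_of_ne hg1 hne
  have hw0p : 0 < w0 := lt_of_le_of_ne hw0n (Ne.symm h0ne)
  have hw1p : 0 < w1 := lt_of_le_of_ne hw1n (Ne.symm h1ne)
  have hT0 : 0 < 1 - g * v := by nlinarith
  set T0 := 1 - g * v with hT0d
  set e := 1 - g with hed
  have he : 0 < e := by rw [hed]; linarith
  set a := e / T0 with had
  have ha : 0 < a := div_pos he hT0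
  have hA2 : 0 ≤ 1 - g + g * v - a := by
    rw [had, sub_nonneg, div_le_iff₀ hT0]
    have : (1 - g + g * v) * T0 = (1 - g) + g * g * v * (1 - v) := by rw [hT0d]; ring
    rw [this, hed]
    have : 0 ≤ g * g * v * (1 - v) := by
      have : 0 ≤ 1 - v := by linarith
      positivity
    linarith
  have cc : ∀ (c d : ℝ) (F G : Matrix ι μ ℂ),
      ((c : ℂ) • F) * ((d : ℂ) • G)ᴴ = ((c * d : ℝ) : ℂ) • (F * Gᴴ) := fun c d F G => by
    rw [conjTranspose_smul, Matrix.smul_mul, Matrix.mul_smul, smul_smul, Complex.star_def,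
      Complex.conj_ofReal, Complex.ofReal_mul]
  have sA : (√T0 : ℝ) * √T0 = T0 := Real.mul_self_sqrt hT0.le
  have sC : (√a : ℝ) * √a = a := Real.mul_self_sqrt ha.le
  have sAC : √T0 * √a = √e := by
    rw [← Real.sqrt_mul hT0.le, had]
    congr 1
    field_simp
  set A : Matrix ι μ ℂ := ((√T0 : ℝ) : ℂ) • F0 with hA
  set C : Matrix ι μ ℂ := ((√a : ℝ) : ℂ) • F1 with hC
  set β : Matrix ι ι ℂ := ((g * (1 - v) : ℝ) : ℂ) • (F1 * F1ᴴ) with hβd
  set δ : Matrix ι ι ℂ :=
    ((g * v : ℝ) : ℂ) • (F0 * F0ᴴ) + ((1 - g + g * v - a : ℝ) : ℂ) • (F1 * F1ᴴ) with hδd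
  have hAA : A * Aᴴ = (T0 : ℂ) • (F0 * F0ᴴ) := by rw [hA, cc, sA]
  have hCC : C * Cᴴ = (a : ℂ) • (F1 * F1ᴴ) := by rw [hC, cc, sC]
  have hAC : A * Cᴴ = (√e : ℂ) • (F0 * F1ᴴ) := by rw [hA, hC, cc, sAC]
  have hCA : C * Aᴴ = (√e : ℂ) • (F1 * F0ᴴ) := by rw [hA, hC, cc, mul_comm, sAC]
  have hblk : blk A C β δ = fromBlocks
      ((T0 : ℂ) • (F0 * F0ᴴ) + ((g * (1 - v) : ℝ) : ℂ) • (F1 * F1ᴴ))
      ((√e : ℂ) • (F0 * F1ᴴ)) ((√e : ℂ) • (F1 * F0ᴴ))
      (((g * v : ℝ) : ℂ) • (F0 * F0ᴴ) + ((1 - g + g * v : ℝ) : ℂ) • (F1 * F1ᴴ)) := by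
    rw [blk, hAA, hCC, hAC, hCA, hδd, hβd]
    congr 1
    push_cast
    module
  rw [← hblk]
  have hδp : δ.PosSemidef := (psd _ gvn hG0).add (psd _ hA2 hG1)
  have hu : 0 < rtr (A * Aᴴ) := by rw [hAA, rtr_smul, ← hw0]; positivity
  have hv' : 0 < rtr (C * Cᴴ) := by rw [hCC, rtr_smul, ← hw1]; positivity
  have main := gap_blk A C (psd _ gv1 hG1) hδp hu hv'
  have hsum := gap_add (psd _ gvn hG0) (psd _ hA2 hG1)
  rw [← hδd, gap_smul hG0.1, gap_smul hG1.1] at hsum
  rw [← hβd] at main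
  have etrd : rtr δ = g * v * w0 + (1 - g + g * v - a) * w1 := by
    rw [hδd, rtr_add, rtr_smul, rtr_smul]
  have etrb : rtr β = g * (1 - v) * w1 := by rw [hβd, rtr_smul]
  have gb : gap β = g * (1 - v) * gap (F1 * F1ᴴ) := by rw [hβd, gap_smul hG1.1]
  rw [etrd, etrb, gb, hAA, hCC, rtr_smul, rtr_smul, gap_smul hG0.1, gap_smul hG1.1,
    ← hw0, ← hw1] at main
  set W := w0 + w1 with hW
  have hWp : 0 < W := by linarith
  set q := w1 / W with hq
  set S := √(rad g v q) with hS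
  set uu := T0 * w0 with huu
  set vv := a * w1 with hvv
  set bb := g * (1 - v) * w1 with hbb
  set dd := g * v * w0 + (1 - g + g * v - a) * w1 with hdd
  have hW2 : uu + bb + vv + dd = W := by rw [huu, hbb, hvv, hdd, hW, hT0d]; ring
  have hrad : (uu + bb - vv - dd) ^ 2 + 4 * (uu * vv) = W ^ 2 * rad g v q := by
    have e1 : uu + bb - vv - dd = W * (1 - 2 * tout g v q) := by
      have : W * q = w1 := by rw [hq]; field_simp
      rw [huu, hbb, hvv, hdd, tout, hT0d]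
      linear_combination (2 * (1 - g)) * this + (-(1 - 2 * g * v)) * hW
    have e2 : uu * vv = W ^ 2 * ((1 - g) * q * (1 - q)) := by
      rw [huu, hvv, had, hq, hed, hW]
      field_simp
      ring
    rw [e1, e2, rad]
    ring
  have hS' : √((uu + bb - vv - dd) ^ 2 + 4 * (uu * vv)) = W * S := by
    rw [hrad, Real.sqrt_mul (sq_nonneg W), Real.sqrt_sq hWp.le]
  have he1 : e1 uu vv bb dd = W * ((1 + S) / 2) := by unfold e1; rw [hS', hW2]; ring
  have he2 : e2 uu vv bb dd = W * ((1 - S) / 2) := by unfold e2; rw [hS', hW2]; ring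
  have hpf : pf g v w0 w1 = W * (negMulLog ((1 + S) / 2) + negMulLog ((1 - S) / 2)) := by
    rw [pf, phi]
  rw [he1, he2, hW2, negMulLog_mul, negMulLog_mul] at main
  have hg1' : (T0 + g * v) * gap (F0 * F0ᴴ) = gap (F0 * F0ᴴ) := by rw [hT0d]; ring
  have hlin : ((1 + S) / 2 + (1 - S) / 2) * negMulLog W = negMulLog W := by ring
  rw [hpf]
  linarith

theorem gap_eq_zero_of_subsingleton {ι : Type} [Fintype ι] [DecidableEq ι] [Subsingleton ι]
    {M : Matrix ι ι ℂ} (h : M.IsHermitian) : gap M = 0 := by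
  rcases isEmpty_or_nonempty ι with he | ⟨⟨i0⟩⟩
  · simp [gap, ent, rtr, h, Matrix.trace]
  · have : Finset.univ = ({i0} : Finset ι) := by ext x; simp [Subsingleton.elim x i0]
    rw [gap, ent, dif_pos h, rtr_eq_sum_eig h, this]
    simp

/-- Excited population of one site. -/
def mass {n : ℕ} (φ : (Fin n → Fin 2) → ℂ) (l : Fin n) (b : Fin 2) : ℝ :=
  ∑ i, if i l = b then Complex.normSq (φ i) else 0

theorem mass_nonneg {n : ℕ} (φ : (Fin n → Fin 2) → ℂ) (l : Fin n) (b : Fin 2) : 0 ≤ mass φ l b :=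
  Finset.sum_nonneg fun i _ => by split_ifs <;> simp [Complex.normSq_nonneg]

/-- Glue the first bit. -/
def consE (n : ℕ) : (Fin n → Fin 2) ⊕ (Fin n → Fin 2) ≃ (Fin (n + 1) → Fin 2) where
  toFun := Sum.elim (fun x => (Fin.cons 0 x : Fin (n + 1) → Fin 2))
    (fun x => (Fin.cons 1 x : Fin (n + 1) → Fin 2))
  invFun i := if i 0 = 0 then Sum.inl (Fin.tail i) else Sum.inr (Fin.tail i)
  left_inv x := by rcases x with x | x <;> simp
  right_inv i := by
    by_cases h : i 0 = 0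
    · simp only [h, if_true, Sum.elim_inl]
      conv_rhs => rw [← Fin.cons_self_tail i, h]
    · have h1 : i 0 = 1 := by omega
      simp only [h, if_false, Sum.elim_inr]
      conv_rhs => rw [← Fin.cons_self_tail i, h1]

theorem sum_cons {n : ℕ} {β : Type*} [AddCommMonoid β] (f : (Fin (n + 1) → Fin 2) → β) :
    ∑ i, f i = ∑ x : Fin n → Fin 2, f (Fin.cons 0 x) + ∑ x : Fin n → Fin 2, f (Fin.cons 1 x) := by
  rw [← Equiv.sum_comp (consE n) f, Fintype.sum_sum_type]
  rfl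

theorem tpow_block {g v : ℝ} (hg : g ∈ Icc (0 : ℝ) 1) (hv : v ∈ Icc (0 : ℝ) 1) {n : ℕ}
    (φ : (Fin (n + 1) → Fin 2) → ℂ) :
    Matrix.reindex (consE n).symm (consE n).symm (tpow g v (n + 1) (vecMulVec φ (star φ))) =
      fromBlocks
        (((1 - g * v : ℝ) : ℂ) • (PhiMat g v (fun x => φ (Fin.cons 0 x)) *
            (PhiMat g v (fun x => φ (Fin.cons 0 x)))ᴴ)
          + ((g * (1 - v) : ℝ) : ℂ) • (PhiMat g v (fun x => φ (Fin.cons 1 x)) *
            (PhiMat g v (fun x => φ (Fin.cons 1 x)))ᴴ))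
        ((√(1 - g) : ℂ) • (PhiMat g v (fun x => φ (Fin.cons 0 x)) *
            (PhiMat g v (fun x => φ (Fin.cons 1 x)))ᴴ))
        ((√(1 - g) : ℂ) • (PhiMat g v (fun x => φ (Fin.cons 1 x)) *
            (PhiMat g v (fun x => φ (Fin.cons 0 x)))ᴴ))
        (((g * v : ℝ) : ℂ) • (PhiMat g v (fun x => φ (Fin.cons 0 x)) *
            (PhiMat g v (fun x => φ (Fin.cons 0 x)))ᴴ)
          + ((1 - g + g * v : ℝ) : ℂ) • (PhiMat g v (fun x => φ (Fin.cons 1 x)) *
            (PhiMat g v (fun x => φ (Fin.cons 1 x)))ᴴ)) := by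
  simp only [← tpow_outer hg hv]
  ext (i | i) (j | j) <;>
    simp [Matrix.reindex_apply, consE, tpow, sum_cons, Fin.prod_univ_succ, vecMulVec_apply, gadc,
      Matrix.single_apply, Finset.mul_sum, Finset.sum_add_distrib, mul_assoc]

theorem gap_lower {g v : ℝ} (hg : g ∈ Icc (0 : ℝ) 1) (hv : v ∈ Icc (0 : ℝ) 1) :
    ∀ {n : ℕ} (φ : (Fin n → Fin 2) → ℂ),
      ∑ l, pf g v (mass φ l 0) (mass φ l 1) ≤ gap (tpow g v n (vecMulVec φ (star φ))) := by
  intro n
  induction n with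
  | zero =>
    intro φ
    rw [tpow_outer hg hv, gap_eq_zero_of_subsingleton (posSemidef_self_mul_conjTranspose _).1]
    simp
  | succ n ih =>
    intro φ
    set φ0 : (Fin n → Fin 2) → ℂ := fun x => φ (Fin.cons 0 x) with h0
    set φ1 : (Fin n → Fin 2) → ℂ := fun x => φ (Fin.cons 1 x) with h1
    have hH : (tpow g v (n + 1) (vecMulVec φ (star φ))).IsHermitian := by
      rw [tpow_outer hg hv]; exact (posSemidef_self_mul_conjTranspose _).1
    rw [← gap_reindex (consE n).symm hH, tpow_block hg hv φ]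
    refine le_trans ?_ (gap_step hg hv _ _)
    rw [← h0, ← h1, rtr_phimat hg hv, rtr_phimat hg hv, ← tpow_outer hg hv, ← tpow_outer hg hv]
    have m0 : mass φ 0 0 = nsq φ0 := by simp [mass, sum_cons, nsq, h0]
    have m1 : mass φ 0 1 = nsq φ1 := by simp [mass, sum_cons, nsq, h1]
    have ms : ∀ l b, mass φ (Fin.succ l) b = mass φ0 l b + mass φ1 l b := fun l b => by
      simp [mass, sum_cons, h0, h1]
    rw [Fin.sum_univ_succ, m0, m1]
    simp only [ms]
    have hadd := Finset.sum_le_sum (s := Finset.univ) fun l _ =>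
      pf_add hg hv (mass_nonneg φ0 l 0) (mass_nonneg φ0 l 1) (mass_nonneg φ1 l 0)
        (mass_nonneg φ1 l 1)
    rw [Finset.sum_add_distrib] at hadd
    linarith [ih φ0, ih φ1]

end

end Vale.Agent.P358
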