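import Vale.Agent.P358.Count
import Mathlib.Analysis.SpecialFunctions.Integrals.Basic
import Mathlib.Analysis.SumIntegralComparisons
import Mathlib.NumberTheory.Harmonic.Bounds

/-! # Integrals used in the entropy bound -/

namespace Vale.Agent.P358

open Matrix Real MeasureTheory intervalIntegral
open scoped ComplexOrder Interval

noncomputable section

theorem int_indicator (z : ℝ) {c : ℝ} (hc : 0 ≤ c) :
    ∫ x in (0 : ℝ)..c, (if x < z then (1 : ℝ) else 0) = min (max z 0) c := by
  rw [intervalIntegral.integral_of_le hc]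
  have e : (fun x : ℝ => if x < z then (1 : ℝ) else 0) = Set.indicator (Set.Iio z) (fun _ => 1) := by
    funext x; simp [Set.indicator_apply]
  rw [e, MeasureTheory.setIntegral_indicator measurableSet_Iio, MeasureTheory.setIntegral_const,
    smul_eq_mul, mul_one]
  by_cases h : z ≤ c
  · have : Set.Ioc (0 : ℝ) c ∩ Set.Iio z = Set.Ioo 0 z := by
      ext x
      simp only [Set.mem_inter_iff, Set.mem_Ioc, Set.mem_Iio, Set.mem_Ioo]
      exact ⟨fun h' => ⟨h'.1.1, h'.2⟩, fun h' => ⟨⟨h'.1, by linarith [h'.2]⟩, h'.2⟩⟩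
    rw [this, Real.volume_real_Ioo, sub_zero, min_eq_left (max_le h hc)]
  · have : Set.Ioc (0 : ℝ) c ∩ Set.Iio z = Set.Ioc 0 c := by
      ext x
      simp only [Set.mem_inter_iff, Set.mem_Ioc, Set.mem_Iio]
      exact ⟨fun h' => h'.1, fun h' => ⟨h', by linarith [h'.2]⟩⟩
    rw [this, Real.volume_real_Ioc_of_le hc, sub_zero, min_eq_right]
    exact le_max_of_le_left (le_of_not_ge h)

theorem intble_indicator (z a b : ℝ) :
    IntervalIntegrable (fun x : ℝ => if x < z then (1 : ℝ) else 0) volume a b :=
  Antitone.intervalIntegrable fun x y hxy => by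
    show (if y < z then (1 : ℝ) else 0) ≤ if x < z then 1 else 0
    split_ifs <;> linarith

theorem sum_min_mono {α β : Type} [Fintype α] [Fintype β] (f : α → ℝ) (g : β → ℝ) {c : ℝ}
    (hc : 0 ≤ c) (hf : ∀ i, 0 ≤ f i) (hg : ∀ i, 0 ≤ g i)
    (h : ∀ x, 0 < x → (∑ i, if x < f i then (1 : ℝ) else 0) ≤ ∑ i, if x < g i then (1 : ℝ) else 0) :
    ∑ i, min (f i) c ≤ ∑ i, min (g i) c := by
  have ef : ∀ i, min (f i) c = ∫ x in (0 : ℝ)..c, (if x < f i then (1 : ℝ) else 0) := fun i => by
    rw [int_indicator _ hc, max_eq_left (hf i)]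
  have eg : ∀ i, min (g i) c = ∫ x in (0 : ℝ)..c, (if x < g i then (1 : ℝ) else 0) := fun i => by
    rw [int_indicator _ hc, max_eq_left (hg i)]
  simp only [ef, eg]
  rw [← intervalIntegral.integral_finsetSum (fun i _ => intble_indicator _ _ _),
    ← intervalIntegral.integral_finsetSum (fun i _ => intble_indicator _ _ _)]
  refine intervalIntegral.integral_mono_on_of_le_Ioo hc ?_ ?_ fun x hx => h x hx.1
  · refine (IntervalIntegrable.sum Finset.univ
      (fun i _ => intble_indicator (f i) 0 c)).congr ?_
    intro x _; simp only [Finset.sum_apply]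
  · refine (IntervalIntegrable.sum Finset.univ
      (fun i _ => intble_indicator (g i) 0 c)).congr ?_
    intro x _; simp only [Finset.sum_apply]

theorem soft_intble {a b c : ℝ} (hc : 0 < c) (T : ℝ) :
    IntervalIntegrable (fun t => a / max (t + b) c) volume 0 T := by
  refine (Continuous.div continuous_const (by fun_prop) fun t => ?_).intervalIntegrable 0 T
  exact (lt_max_of_lt_right hc).ne'

theorem soft_int {a b p T : ℝ} (ha : 0 ≤ a) (hb : 0 ≤ b) (hp : 0 < p) (hT : a / p ≤ T) :
    a + a * log (T * p / a) - p * b ≤ ∫ t in (0 : ℝ)..T, a / max (t + b) (a / p) := by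
  rcases eq_or_lt_of_le ha with h | ha'
  · subst h
    simp [mul_nonneg hp.le hb]
  set c := a / p with hc
  have hc0 : 0 < c := by positivity
  set g : ℝ → ℝ := fun s => a / max s c with hg
  have hgc : Continuous g := Continuous.div continuous_const (by fun_prop) fun t =>
    (lt_max_of_lt_right hc0).ne'
  have hi : ∀ x y, IntervalIntegrable g volume x y := fun x y => hgc.intervalIntegrable x y
  have e : ∫ t in (0 : ℝ)..T, a / max (t + b) c = ∫ s in b..T + b, g s := by
    have := intervalIntegral.integral_comp_add_right (a := (0 : ℝ)) (b := T) g b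
    rw [zero_add] at this
    exact this
  rw [e]
  have h1 : (∫ s in (0 : ℝ)..b, g s) + ∫ s in b..T + b, g s
      = (∫ s in (0 : ℝ)..T, g s) + ∫ s in T..T + b, g s := by
    rw [intervalIntegral.integral_add_adjacent_intervals (hi _ _) (hi _ _),
      intervalIntegral.integral_add_adjacent_intervals (hi _ _) (hi _ _)]
  have h2 : ∫ s in (0 : ℝ)..b, g s ≤ p * b := by
    have := intervalIntegral.integral_mono_on hb (hi 0 b) (intervalIntegrable_const (c := p))
      (fun s _ => by
        rw [hg]; simp only
        rw [div_le_iff₀ (lt_max_of_lt_right hc0)]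
        calc a = p * c := by rw [hc]; field_simp
          _ ≤ p * max s c := mul_le_mul_of_nonneg_left (le_max_right _ _) hp.le)
    simpa [intervalIntegral.integral_const, mul_comm] using this
  have h3 : 0 ≤ ∫ s in T..T + b, g s :=
    intervalIntegral.integral_nonneg (by linarith) fun s _ => div_nonneg ha (le_max_of_le_right hc0.le)
  have h4 : ∫ s in (0 : ℝ)..T, g s = a + a * log (T * p / a) := by
    rw [← intervalIntegral.integral_add_adjacent_intervals (hi 0 c) (hi c T)]
    congr 1
    · rw [intervalIntegral.integral_congr (g := fun _ => p) fun s hs => ?_]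
      · simp [hc]; field_simp
      · rw [Set.uIcc_of_le hc0.le] at hs
        simp only [hg, max_eq_right hs.2]
        rw [hc]; field_simp
    · rw [intervalIntegral.integral_congr (g := fun s => a * s⁻¹) fun s hs => ?_]
      · rw [intervalIntegral.integral_const_mul, integral_inv_of_pos hc0 (by linarith [hT])]
        congr 2
        rw [hc]; field_simp
      · rw [Set.uIcc_of_le hT] at hs
        simp only [hg, max_eq_left hs.1, div_eq_mul_inv]
  linarith

/-- Antiderivative of a shifted logarithm. -/
def Flog (T x : ℝ) : ℝ := (T + x) * log (T + x) + negMulLog x - T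

theorem int_log_add (T x : ℝ) : ∫ t in (0 : ℝ)..T, log (t + x) = Flog T x := by
  rw [intervalIntegral.integral_comp_add_right, integral_log, Flog, negMulLog]
  ring

theorem intble_log_add (T x : ℝ) : IntervalIntegrable (fun t => log (t + x)) volume 0 T := by
  have h : IntervalIntegrable log volume (0 + x) (T + x) := intervalIntegrable_log'
  have := h.comp_add_right x
  simpa using this

theorem Flog_expand {T x : ℝ} (hT : 0 < T) (hx : 0 ≤ x) :
    T * log T - T + negMulLog x + x * (log T + 1) ≤ Flog T x ∧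
      Flog T x ≤ T * log T - T + negMulLog x + x * (log T + 1) + x ^ 2 / T := by
  have hpos : 0 < T + x := by linarith
  have h1 := Real.log_le_sub_one_of_pos (x := (T + x) / T) (by positivity)
  have h2 := Real.one_sub_inv_le_log_of_pos (x := (T + x) / T) (by positivity)
  rw [Real.log_div hpos.ne' hT.ne'] at h1 h2
  have e1 : (T + x) / T - 1 = x / T := by field_simp; ring
  have e2 : 1 - ((T + x) / T)⁻¹ = x / (T + x) := by field_simp; ring
  rw [e1] at h1; rw [e2] at h2
  have h3 := mul_le_mul_of_nonneg_left h1 hpos.le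
  have h4 := mul_le_mul_of_nonneg_left h2 hpos.le
  have e3 : (T + x) * (x / T) = x + x ^ 2 / T := by field_simp
  have e4 : (T + x) * (x / (T + x)) = x := by field_simp
  rw [e3] at h3; rw [e4] at h4
  unfold Flog
  constructor <;> linarith

variable {ι : Type} [Fintype ι] [DecidableEq ι]

theorem ld_shift {M : Matrix ι ι ℂ} (h : M.PosSemidef) {t : ℝ} (ht : 0 < t) :
    ld ((t : ℂ) • (1 : Matrix ι ι ℂ) + M) = ∑ i, log (t + h.1.eigenvalues i) := by
  obtain ⟨U, hU, hU', hd⟩ := herm_decomp h.1
  have e : (t : ℂ) • (1 : Matrix ι ι ℂ) + M = fc U (fun i => t + h.1.eigenvalues i) := by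
    rw [fc_add, fc_const hU]
    congr 1
  rw [ld, e, fc, det_mul, det_mul, mul_right_comm, ← det_mul, hU, det_one, one_mul, det_diagonal,
    ← Complex.ofReal_prod, Complex.ofReal_re, Real.log_prod]
  intro i _
  linarith [h.eigenvalues_nonneg i]

theorem intble_ld_shift {M : Matrix ι ι ℂ} (h : M.PosSemidef) {T : ℝ} (hT : 0 ≤ T) :
    IntervalIntegrable (fun t => ld ((t : ℂ) • (1 : Matrix ι ι ℂ) + M)) volume 0 T := by
  refine (IntervalIntegrable.sum Finset.univ
    (fun i _ => intble_log_add T (h.1.eigenvalues i))).congr ?_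
  intro t ht
  rw [Set.uIoc_of_le hT] at ht
  simp only [Finset.sum_apply]
  exact (ld_shift h ht.1).symm

theorem int_ld_shift {M : Matrix ι ι ℂ} (h : M.PosSemidef) {T : ℝ} (hT : 0 ≤ T) :
    ∫ t in (0 : ℝ)..T, ld ((t : ℂ) • (1 : Matrix ι ι ℂ) + M)
      = ∑ i, Flog T (h.1.eigenvalues i) := by
  rw [intervalIntegral.integral_congr_ae (g := fun t => ∑ i, log (t + h.1.eigenvalues i)),
    intervalIntegral.integral_finsetSum (fun i _ => intble_log_add T _)]
  · exact Finset.sum_congr rfl fun i _ => int_log_add T _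
  · refine Filter.Eventually.of_forall fun t ht => ?_
    rw [Set.uIoc_of_le hT] at ht
    exact ld_shift h ht.1

theorem sum_Flog_expand {M : Matrix ι ι ℂ} (h : M.PosSemidef) {T : ℝ} (hT : 0 < T) :
    (Fintype.card ι : ℝ) * (T * log T - T) + ent M + rtr M * (log T + 1)
        ≤ ∑ i, Flog T (h.1.eigenvalues i) ∧
      ∑ i, Flog T (h.1.eigenvalues i) ≤
        (Fintype.card ι : ℝ) * (T * log T - T) + ent M + rtr M * (log T + 1) + rtr M ^ 2 / T := by
  have e : (Fintype.card ι : ℝ) * (T * log T - T) + ent M + rtr M * (log T + 1)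
      = ∑ i, (T * log T - T + negMulLog (h.1.eigenvalues i)
          + h.1.eigenvalues i * (log T + 1)) := by
    rw [ent, dif_pos h.1, rtr_eq_sum_eig h.1]
    simp [Finset.sum_add_distrib, Finset.sum_mul]
    ring
  constructor
  · rw [e]
    exact Finset.sum_le_sum fun i _ => (Flog_expand hT (h.eigenvalues_nonneg i)).1
  · rw [e]
    calc ∑ i, Flog T (h.1.eigenvalues i)
        ≤ ∑ i, (T * log T - T + negMulLog (h.1.eigenvalues i)
            + h.1.eigenvalues i * (log T + 1) + h.1.eigenvalues i ^ 2 / T) :=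
          Finset.sum_le_sum fun i _ => (Flog_expand hT (h.eigenvalues_nonneg i)).2
      _ ≤ _ := by
        rw [Finset.sum_add_distrib, ← Finset.sum_div, rtr_eq_sum_eig h.1]
        gcongr
        exact Finset.sum_sq_le_sq_sum_of_nonneg fun i _ => h.eigenvalues_nonneg i

end

end Vale.Agent.P358
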