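import Vale.Agent.P358.Ladder
import Vale.Agent.P358.Ints
import Mathlib.Data.Matrix.ColumnRowPartitioned

/-! # The block entropy inequality -/

namespace Vale.Agent.P358

open Matrix Real MeasureTheory intervalIntegral Filter Topology
open scoped ComplexOrder Interval

noncomputable section

variable {ι κ μ : Type} [Fintype ι] [DecidableEq ι] [Fintype κ] [DecidableEq κ]
  [Fintype μ] [DecidableEq μ]

/-- The block matrix. -/
def blk (A : Matrix ι μ ℂ) (C : Matrix κ μ ℂ) (β : Matrix ι ι ℂ) (δ : Matrix κ κ ℂ) :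
    Matrix (ι ⊕ κ) (ι ⊕ κ) ℂ :=
  fromBlocks (A * Aᴴ + β) (A * Cᴴ) (C * Aᴴ) (C * Cᴴ + δ)

theorem blk_eq (A : Matrix ι μ ℂ) (C : Matrix κ μ ℂ) (β : Matrix ι ι ℂ) (δ : Matrix κ κ ℂ) :
    blk A C β δ = fromBlocks β 0 0 δ + fromRows A C * (fromRows A C)ᴴ := by
  rw [conjTranspose_fromRows_eq_fromCols_conjTranspose, fromRows_mul_fromCols, fromBlocks_add,
    blk]
  simp [add_comm]

theorem blk_psd (A : Matrix ι μ ℂ) (C : Matrix κ μ ℂ) {β : Matrix ι ι ℂ} {δ : Matrix κ κ ℂ}
    (hβ : β.PosSemidef) (hδ : δ.PosSemidef) : (blk A C β δ).PosSemidef := by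
  rw [blk_eq]
  refine PosSemidef.add ?_ (posSemidef_self_mul_conjTranspose _)
  refine PosSemidef.of_dotProduct_mulVec_nonneg (IsHermitian.fromBlocks hβ.1 (by simp) hδ.1) ?_
  intro x
  have h1 := hβ.dotProduct_mulVec_nonneg (x ∘ Sum.inl)
  have h2 := hδ.dotProduct_mulVec_nonneg (x ∘ Sum.inr)
  rw [fromBlocks_mulVec]
  simp only [zero_mulVec, add_zero, zero_add, dotProduct, Fintype.sum_sum_type, Sum.elim_inl,
    Sum.elim_inr, Pi.star_apply]
  exact add_nonneg h1 h2

/-- The integrand. -/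
def Jt (A : Matrix ι μ ℂ) (C : Matrix κ μ ℂ) (β : Matrix ι ι ℂ) (δ : Matrix κ κ ℂ) (t : ℝ) : ℝ :=
  ld (1 + pres A β t + pres C δ t)

theorem ld_blk (A : Matrix ι μ ℂ) (C : Matrix κ μ ℂ) {β : Matrix ι ι ℂ} {δ : Matrix κ κ ℂ}
    (hβ : β.PosSemidef) (hδ : δ.PosSemidef) {t : ℝ} (ht : 0 < t) :
    ld ((t : ℂ) • (1 : Matrix (ι ⊕ κ) (ι ⊕ κ) ℂ) + blk A C β δ) =
      ld ((t : ℂ) • (1 : Matrix ι ι ℂ) + β) + ld ((t : ℂ) • (1 : Matrix κ κ ℂ) + δ) +
        Jt A C β δ t := by
  set S : Matrix ι ι ℂ := (t : ℂ) • (1 : Matrix ι ι ℂ) + β with hS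
  set T : Matrix κ κ ℂ := (t : ℂ) • (1 : Matrix κ κ ℂ) + δ with hT
  have hSd := posDef_shift hβ ht
  have hTd := posDef_shift hδ ht
  rw [← hS] at hSd; rw [← hT] at hTd
  have hSu : IsUnit S.det := (Matrix.isUnit_iff_isUnit_det S).mp hSd.isUnit
  have hTu : IsUnit T.det := (Matrix.isUnit_iff_isUnit_det T).mp hTd.isUnit
  set D : Matrix (ι ⊕ κ) (ι ⊕ κ) ℂ := fromBlocks S 0 0 T with hD
  have hDinv : D * fromBlocks S⁻¹ 0 0 T⁻¹ = 1 := by
    rw [hD, fromBlocks_multiply]
    simp [Matrix.mul_nonsing_inv _ hSu, Matrix.mul_nonsing_inv _ hTu]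
  have e : (t : ℂ) • (1 : Matrix (ι ⊕ κ) (ι ⊕ κ) ℂ) + blk A C β δ
      = D * (1 + (fromBlocks S⁻¹ 0 0 T⁻¹ * fromRows A C) * (fromRows A C)ᴴ) := by
    rw [Matrix.mul_add, Matrix.mul_one, ← Matrix.mul_assoc, ← Matrix.mul_assoc, hDinv,
      Matrix.one_mul, blk_eq, ← add_assoc, hD, hS, hT]
    congr 1
    rw [← fromBlocks_one, fromBlocks_smul, fromBlocks_add]
    simp
  have hJ : (1 + pres A β t + pres C δ t).PosDef :=
    (PosDef.one.add_posSemidef (pres_psd A hβ ht)).add_posSemidef (pres_psd C hδ ht)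
  have e2 : ((t : ℂ) • (1 : Matrix (ι ⊕ κ) (ι ⊕ κ) ℂ) + blk A C β δ).det
      = S.det * T.det * (1 + pres A β t + pres C δ t).det := by
    rw [e, det_mul, det_one_add_mul_comm, hD, det_fromBlocks_zero₁₂]
    congr 2
    rw [conjTranspose_fromRows_eq_fromCols_conjTranspose, ← Matrix.mul_assoc,
      fromCols_mul_fromBlocks, fromCols_mul_fromRows, pres, pres, add_assoc]
    simp only [Matrix.mul_zero, add_zero, zero_add, hS, hT]
  obtain ⟨s1, s2⟩ := Complex.pos_iff.mp hSd.det_pos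
  obtain ⟨t1, t2⟩ := Complex.pos_iff.mp hTd.det_pos
  obtain ⟨j1, j2⟩ := Complex.pos_iff.mp hJ.det_pos
  have e3 : (S.det * T.det * (1 + pres A β t + pres C δ t).det).re
      = S.det.re * T.det.re * (1 + pres A β t + pres C δ t).det.re := by
    simp [Complex.mul_re, Complex.mul_im, ← s2, ← t2, ← j2]
  rw [ld, e2, e3, Real.log_mul (by positivity) j1.ne', Real.log_mul s1.ne' t1.ne']
  rfl

theorem pres_count (A : Matrix ι μ ℂ) {β : Matrix ι ι ℂ} (hβ : β.PosSemidef) {t x : ℝ}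
    (ht : 0 < t) (hx : 0 < x) (hQ : (A * Aᴴ - (x : ℂ) • β).IsHermitian) :
    nEig hQ (x * t) ≤ nEig (pres_psd A hβ ht).1 x := by
  refine count_le _ A hQ fun y hy => pres_key A hβ ht hx y ?_
  rw [qv_sub, qv_smul, qv_gram] at hy
  linarith

theorem pres_min (A : Matrix ι μ ℂ) {β : Matrix ι ι ℂ} (hβ : β.PosSemidef) {t c : ℝ}
    (ht : 0 < t) (hc : 0 ≤ c) :
    ∑ i, min ((posSemidef_self_mul_conjTranspose A).1.eigenvalues i / (t + rtr β)) c ≤
      ∑ i, min ((pres_psd A hβ ht).1.eigenvalues i) c := by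
  have hb := rtr_nonneg hβ
  refine sum_min_mono _ _ hc (fun i => div_nonneg
    ((posSemidef_self_mul_conjTranspose A).eigenvalues_nonneg i) (by linarith))
    (fun i => (pres_psd A hβ ht).eigenvalues_nonneg i) fun x hx => ?_
  rw [← nEig_eq_sum]
  have h := count_le (pres_psd A hβ ht).1 A (posSemidef_self_mul_conjTranspose A).1
    (x := x) (τ := x * (t + rtr β)) fun y hy => pres_key A hβ ht hx y (by
      rw [qv_gram] at hy
      have := mul_le_mul_of_nonneg_left (qv_le_rtr hβ y) hx.le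
      linarith)
  calc _ = (nEig (posSemidef_self_mul_conjTranspose A).1 (x * (t + rtr β)) : ℝ) := by
        rw [nEig_eq_sum]
        refine Finset.sum_congr rfl fun i _ => ?_
        simp only [lt_div_iff₀ (by linarith : 0 < t + rtr β)]
    _ ≤ _ := by exact_mod_cast h

/-- Pointwise minorant used for the first step. -/
def soft (A : Matrix ι μ ℂ) (b p t : ℝ) : ℝ :=
  ∑ i, (posSemidef_self_mul_conjTranspose A).1.eigenvalues i /
    max (t + b) ((posSemidef_self_mul_conjTranspose A).1.eigenvalues i / p)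

theorem soft_le (A : Matrix ι μ ℂ) {β : Matrix ι ι ℂ} (hβ : β.PosSemidef) {t p : ℝ}
    (ht : 0 < t) (hp : 0 < p) :
    soft A (rtr β) p t ≤ ∑ i, min ((pres_psd A hβ ht).1.eigenvalues i) p := by
  refine le_trans (Finset.sum_le_sum fun i _ => ?_) (pres_min A hβ ht hp.le)
  set a := (posSemidef_self_mul_conjTranspose A).1.eigenvalues i
  have ha : 0 ≤ a := (posSemidef_self_mul_conjTranspose A).eigenvalues_nonneg i
  have hb := rtr_nonneg hβ
  refine le_min (div_le_div_of_nonneg_left ha (by linarith) (le_max_left _ _)) ?_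
  rcases eq_or_lt_of_le ha with h | h
  · rw [← h]; simp [hp.le]
  · calc a / max (t + rtr β) (a / p) ≤ a / (a / p) :=
          div_le_div_of_nonneg_left ha (by positivity) (le_max_right _ _)
      _ = p := by field_simp

theorem soft_intble' (A : Matrix ι μ ℂ) (b : ℝ) {p : ℝ} (hp : 0 < p) (T : ℝ) :
    IntervalIntegrable (soft A b p) volume 0 T := by
  refine (IntervalIntegrable.sum Finset.univ (f := fun i t =>
    (posSemidef_self_mul_conjTranspose A).1.eigenvalues i /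
      max (t + b) ((posSemidef_self_mul_conjTranspose A).1.eigenvalues i / p)) fun i _ => ?_).congr
    (fun t _ => by simp only [soft, Finset.sum_apply])
  rcases eq_or_lt_of_le ((posSemidef_self_mul_conjTranspose A).eigenvalues_nonneg i) with h | h
  · simp only [← h, zero_div]
    exact intervalIntegrable_const
  · exact soft_intble (by positivity) T

theorem soft_lower (A : Matrix ι μ ℂ) {b p T : ℝ} (hb : 0 ≤ b) (hp : 0 < p)
    (hT : rtr (A * Aᴴ) / p ≤ T) (hT0 : 0 < T) :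
    rtr (A * Aᴴ) * (1 + log (T * p)) + ent (A * Aᴴ) - Fintype.card ι * (p * b)
      ≤ ∫ t in (0 : ℝ)..T, soft A b p t := by
  set hA := posSemidef_self_mul_conjTranspose A
  have hle : ∀ i, hA.1.eigenvalues i / p ≤ T := fun i => by
    refine le_trans ?_ hT
    gcongr
    rw [rtr_eq_sum_eig hA.1]
    exact Finset.single_le_sum (fun j _ => hA.eigenvalues_nonneg j) (Finset.mem_univ i)
  have hint : ∀ i, IntervalIntegrable
      (fun t => hA.1.eigenvalues i / max (t + b) (hA.1.eigenvalues i / p)) volume 0 T := by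
    intro i
    rcases eq_or_lt_of_le (hA.eigenvalues_nonneg i) with h | h
    · simp only [← h, zero_div]
      exact intervalIntegrable_const
    · exact soft_intble (by positivity) T
  calc rtr (A * Aᴴ) * (1 + log (T * p)) + ent (A * Aᴴ) - Fintype.card ι * (p * b)
      = ∑ i, (hA.1.eigenvalues i * (1 + log (T * p)) + negMulLog (hA.1.eigenvalues i) - p * b) := by
        rw [rtr_eq_sum_eig hA.1, ent, dif_pos hA.1, Finset.sum_mul]
        simp [Finset.sum_add_distrib, Finset.sum_sub_distrib]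
    _ ≤ ∑ i, ∫ t in (0 : ℝ)..T, hA.1.eigenvalues i / max (t + b) (hA.1.eigenvalues i / p) := by
        refine Finset.sum_le_sum fun i _ => le_trans (le_of_eq ?_)
          (soft_int (hA.eigenvalues_nonneg i) hb hp (hle i))
        rcases eq_or_lt_of_le (hA.eigenvalues_nonneg i) with h | h
        · rw [← h]; simp
        · rw [Real.log_div (by positivity) h.ne', negMulLog]
          ring
    _ = ∫ t in (0 : ℝ)..T, soft A b p t := by
        rw [← intervalIntegral.integral_finsetSum fun i _ => hint i]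
        rfl

theorem count_int (A : Matrix ι μ ℂ) {β : Matrix ι ι ℂ} (hβ : β.PosSemidef) {x T : ℝ} (hx : 0 < x)
    (hT : rtr (A * Aᴴ) / x ≤ T) (hQ : (A * Aᴴ - (x : ℂ) • β).IsHermitian) :
    rtr (A * Aᴴ) / x - rtr β ≤ ∫ t in (0 : ℝ)..T, (nEig hQ (x * t) : ℝ) := by
  have hA := posSemidef_self_mul_conjTranspose A
  have hT0 : 0 ≤ T := le_trans (div_nonneg (rtr_nonneg hA) hx.le) hT
  have hz : ∀ i, hQ.eigenvalues i ≤ rtr (A * Aᴴ) := fun i => eig_le_of_qv hQ (fun y => by
    rw [qv_sub, qv_smul]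
    have := qv_le_rtr hA y
    have := mul_nonneg hx.le (qv_nonneg hβ y)
    linarith) i
  have e : ∀ t : ℝ, (nEig hQ (x * t) : ℝ)
      = ∑ i, if t < hQ.eigenvalues i / x then (1 : ℝ) else 0 := fun t => by
    rw [nEig_eq_sum]
    refine Finset.sum_congr rfl fun i _ => ?_
    simp only [lt_div_iff₀ hx, mul_comm t x]
  simp only [e]
  rw [intervalIntegral.integral_finsetSum fun i _ => intble_indicator _ _ _]
  simp only [int_indicator _ hT0]
  have ht : rtr (A * Aᴴ) / x - rtr β = ∑ i, hQ.eigenvalues i / x := by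
    rw [← Finset.sum_div, ← rtr_eq_sum_eig hQ, rtr, rtr, rtr, Matrix.trace_sub, Matrix.trace_smul]
    simp
    field_simp
  rw [ht]
  refine Finset.sum_le_sum fun i _ => le_min (le_max_left _ _) (le_trans ?_ hT)
  gcongr
  exact hz i

theorem count_intble {Q : Matrix ι ι ℂ} (hQ : Q.IsHermitian) {x : ℝ} (hx : 0 < x) (T : ℝ) :
    IntervalIntegrable (fun t => (nEig hQ (x * t) : ℝ)) volume 0 T :=
  Antitone.intervalIntegrable fun s t hst => by
    show (nEig hQ (x * t) : ℝ) ≤ nEig hQ (x * s)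
    unfold nEig
    gcongr

theorem Jt_int (A : Matrix ι μ ℂ) (C : Matrix κ μ ℂ) {β : Matrix ι ι ℂ} {δ : Matrix κ κ ℂ}
    (hβ : β.PosSemidef) (hδ : δ.PosSemidef) {T : ℝ} (hT : 0 ≤ T) :
    IntervalIntegrable (Jt A C β δ) volume 0 T ∧
      ∫ t in (0 : ℝ)..T, Jt A C β δ t =
        ∑ i, Flog T ((blk_psd A C hβ hδ).1.eigenvalues i) - ∑ i, Flog T (hβ.1.eigenvalues i)
          - ∑ i, Flog T (hδ.1.eigenvalues i) := by
  have hX := blk_psd A C hβ hδ
  have i1 := intble_ld_shift hX hT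
  have i2 := intble_ld_shift hβ hT
  have i3 := intble_ld_shift hδ hT
  have e : ∀ t ∈ Ι (0 : ℝ) T, ld ((t : ℂ) • (1 : Matrix (ι ⊕ κ) (ι ⊕ κ) ℂ) + blk A C β δ)
      - ld ((t : ℂ) • (1 : Matrix ι ι ℂ) + β) - ld ((t : ℂ) • (1 : Matrix κ κ ℂ) + δ)
      = Jt A C β δ t := fun t ht => by
    rw [Set.uIoc_of_le hT] at ht
    rw [ld_blk A C hβ hδ ht.1]; ring
  refine ⟨((i1.sub i2).sub i3).congr e, ?_⟩
  rw [← intervalIntegral.integral_congr_ae (Filter.Eventually.of_forall e),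
    intervalIntegral.integral_sub (i1.sub i2) i3, intervalIntegral.integral_sub i1 i2,
    int_ld_shift hX hT, int_ld_shift hβ hT, int_ld_shift hδ hT]

theorem Jt_lower (A : Matrix ι μ ℂ) (C : Matrix κ μ ℂ) {β : Matrix ι ι ℂ} {δ : Matrix κ κ ℂ}
    (hβ : β.PosSemidef) (hδ : δ.PosSemidef) (p r s : ℕ → ℝ) (n : ℕ) {T : ℝ}
    (hp0 : 0 < p 0) (hr0 : 0 < r 0) (hp : ∀ j < n, p j ≤ p (j + 1)) (hr : ∀ j < n, r j ≤ r (j + 1))
    (hps : ∀ j < n, rtr (A * Aᴴ) / p (j + 1) - rtr β = s (j + 1))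
    (hrs : ∀ j < n, rtr (C * Cᴴ) / r (j + 1) - rtr δ = s (j + 1))
    (hTp : rtr (A * Aᴴ) / p 0 ≤ T) (hTr : rtr (C * Cᴴ) / r 0 ≤ T) (hT : 0 < T) :
    ((rtr (A * Aᴴ) * (1 + log (T * p 0)) + ent (A * Aᴴ) - Fintype.card ι * (p 0 * rtr β)) +
        (rtr (C * Cᴴ) * (1 + log (T * r 0)) + ent (C * Cᴴ) - Fintype.card κ * (r 0 * rtr δ))) /
        (1 + p 0 + r 0) +
      ∑ j ∈ Finset.range n,
        (((p (j + 1) - p j) + (r (j + 1) - r j)) * s (j + 1)) / (1 + p (j + 1) + r (j + 1))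
      ≤ ∫ t in (0 : ℝ)..T, Jt A C β δ t := by
  have mono : ∀ (f : ℕ → ℝ), 0 < f 0 → (∀ j < n, f j ≤ f (j + 1)) → ∀ j ≤ n, f 0 ≤ f j := by
    intro f _ hf j
    induction j with
    | zero => intro _; exact le_rfl
    | succ j ih => intro hj; exact (ih (by omega)).trans (hf j (by omega))
  have hAA := (posSemidef_self_mul_conjTranspose A).1
  have hCC := (posSemidef_self_mul_conjTranspose C).1
  have hQa : ∀ x : ℝ, (A * Aᴴ - (x : ℂ) • β).IsHermitian := fun x =>
    hAA.sub (hβ.1.smul (by simp [IsSelfAdjoint]))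
  have hQc : ∀ x : ℝ, (C * Cᴴ - (x : ℂ) • δ).IsHermitian := fun x =>
    hCC.sub (hδ.1.smul (by simp [IsSelfAdjoint]))
  let low : ℝ → ℝ := fun t =>
    (soft A (rtr β) (p 0) t + soft C (rtr δ) (r 0) t) / (1 + p 0 + r 0) +
      ∑ j ∈ Finset.range n,
        ((p (j + 1) - p j) * (nEig (hQa (p (j + 1))) (p (j + 1) * t) : ℝ) +
          (r (j + 1) - r j) * (nEig (hQc (r (j + 1))) (r (j + 1) * t) : ℝ)) /
          (1 + p (j + 1) + r (j + 1))
  have hpj : ∀ j ∈ Finset.range n, 0 < p (j + 1) ∧ 0 < r (j + 1) := fun j hj =>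
    ⟨lt_of_lt_of_le hp0 (mono p hp0 hp _ (Finset.mem_range.mp hj)),
      lt_of_lt_of_le hr0 (mono r hr0 hr _ (Finset.mem_range.mp hj))⟩
  have i0 : IntervalIntegrable
      (fun t => (soft A (rtr β) (p 0) t + soft C (rtr δ) (r 0) t) / (1 + p 0 + r 0)) volume 0 T :=
    ((soft_intble' A _ hp0 T).add (soft_intble' C _ hr0 T)).div_const _
  have ij : ∀ j ∈ Finset.range n, IntervalIntegrable (fun t =>
      ((p (j + 1) - p j) * (nEig (hQa (p (j + 1))) (p (j + 1) * t) : ℝ) +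
          (r (j + 1) - r j) * (nEig (hQc (r (j + 1))) (r (j + 1) * t) : ℝ)) /
          (1 + p (j + 1) + r (j + 1))) volume 0 T := fun j hj =>
    (((count_intble _ (hpj j hj).1 T).const_mul _).add
      ((count_intble _ (hpj j hj).2 T).const_mul _)).div_const _
  have iS : IntervalIntegrable (fun t => ∑ j ∈ Finset.range n,
      ((p (j + 1) - p j) * (nEig (hQa (p (j + 1))) (p (j + 1) * t) : ℝ) +
          (r (j + 1) - r j) * (nEig (hQc (r (j + 1))) (r (j + 1) * t) : ℝ)) /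
          (1 + p (j + 1) + r (j + 1))) volume 0 T :=
    (IntervalIntegrable.sum _ ij).congr (fun t _ => by simp only [Finset.sum_apply])
  have hlow : ∫ t in (0 : ℝ)..T, low t ≤ ∫ t in (0 : ℝ)..T, Jt A C β δ t := by
    refine intervalIntegral.integral_mono_on_of_le_Ioo hT.le (i0.add iS)
      (Jt_int A C hβ hδ hT.le).1 fun t ht => ?_
    refine le_trans ?_ (ladder (pres_psd A hβ ht.1) (pres_psd C hδ ht.1) p r n hp0.le hr0.le hp hr)
    refine add_le_add ?_ (Finset.sum_le_sum fun j hj => ?_)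
    · gcongr
      · exact soft_le A hβ ht.1 hp0
      · exact soft_le C hδ ht.1 hr0
    · have h1 : (nEig (hQa (p (j + 1))) (p (j + 1) * t) : ℝ) ≤
          nEig (pres_psd A hβ ht.1).1 (p (j + 1)) := by
        exact_mod_cast pres_count A hβ ht.1 (hpj j hj).1 (hQa _)
      have h2 : (nEig (hQc (r (j + 1))) (r (j + 1) * t) : ℝ) ≤
          nEig (pres_psd C hδ ht.1).1 (r (j + 1)) := by
        exact_mod_cast pres_count C hδ ht.1 (hpj j hj).2 (hQc _)
      have := hp j (Finset.mem_range.mp hj)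
      have := hr j (Finset.mem_range.mp hj)
      have := hpj j hj
      gcongr <;> linarith
  refine le_trans ?_ hlow
  rw [intervalIntegral.integral_add i0 iS, intervalIntegral.integral_div,
    intervalIntegral.integral_add (soft_intble' A _ hp0 T) (soft_intble' C _ hr0 T),
    intervalIntegral.integral_finsetSum ij]
  refine add_le_add ?_ (Finset.sum_le_sum fun j hj => ?_)
  · gcongr
    · exact soft_lower A (rtr_nonneg hβ) hp0 hTp hT
    · exact soft_lower C (rtr_nonneg hδ) hr0 hTr hT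
  · have hj' := Finset.mem_range.mp hj
    obtain ⟨hpp, hrr⟩ := hpj j hj
    have hA0 := rtr_nonneg (posSemidef_self_mul_conjTranspose A)
    have hC0 := rtr_nonneg (posSemidef_self_mul_conjTranspose C)
    have hT1 : rtr (A * Aᴴ) / p (j + 1) ≤ T :=
      le_trans (div_le_div_of_nonneg_left hA0 hp0 (mono p hp0 hp _ hj')) hTp
    have hT2 : rtr (C * Cᴴ) / r (j + 1) ≤ T :=
      le_trans (div_le_div_of_nonneg_left hC0 hr0 (mono r hr0 hr _ hj')) hTr
    have c1 := count_int A hβ hpp hT1 (hQa _)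
    have c2 := count_int C hδ hrr hT2 (hQc _)
    rw [hps j hj'] at c1
    rw [hrs j hj'] at c2
    rw [intervalIntegral.integral_div, intervalIntegral.integral_add
      ((count_intble _ hpp T).const_mul _) ((count_intble _ hrr T).const_mul _),
      intervalIntegral.integral_const_mul, intervalIntegral.integral_const_mul, add_mul]
    have := hp j hj'
    have := hr j hj'
    gcongr <;> linarith

end

end Vale.Agent.P358
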