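import Vale.Agent.P358.Entropy
import Mathlib.LinearAlgebra.Matrix.SchurComplement
import Mathlib.LinearAlgebra.Matrix.ToLin
import Mathlib.LinearAlgebra.Dimension.Constructions

/-! # Eigenvalue counting and a staircase lower bound for log determinants -/

namespace Vale.Agent.P358

open Matrix Real
open scoped ComplexOrder

noncomputable section

variable {ι κ : Type} [Fintype ι] [DecidableEq ι] [Fintype κ] [DecidableEq κ]

/-- Real quadratic form. -/
def qv (M : Matrix ι ι ℂ) (y : ι → ℂ) : ℝ := (star y ⬝ᵥ M *ᵥ y).re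

/-- Squared norm. -/
def nsq (y : ι → ℂ) : ℝ := ∑ i, Complex.normSq (y i)

theorem nsq_eq (y : ι → ℂ) : nsq y = (star y ⬝ᵥ y).re := by
  simp [nsq, dotProduct, Complex.re_sum, Complex.normSq_apply]

theorem nsq_nonneg (y : ι → ℂ) : 0 ≤ nsq y := Finset.sum_nonneg fun _ _ => Complex.normSq_nonneg _

theorem dot_conj {μ : Type} [Fintype μ] (U : Matrix ι μ ℂ) (w : μ → ℂ) (x : ι → ℂ) :
    star (U *ᵥ w) ⬝ᵥ x = star w ⬝ᵥ (Uᴴ *ᵥ x) := by
  rw [star_mulVec, ← dotProduct_mulVec]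

theorem qv_conj {μ : Type} [Fintype μ] (U : Matrix ι μ ℂ) (M : Matrix ι ι ℂ) (w : μ → ℂ) :
    qv M (U *ᵥ w) = qv (Uᴴ * M * U) w := by
  rw [qv, qv, dot_conj, mulVec_mulVec, mulVec_mulVec]

theorem qv_diag (a : ι → ℝ) (w : ι → ℂ) :
    qv (diagonal fun i => ((a i : ℝ) : ℂ)) w = ∑ i, a i * Complex.normSq (w i) := by
  rw [qv, dotProduct, Complex.re_sum]
  refine Finset.sum_congr rfl fun i _ => ?_
  rw [mulVec_diagonal, Pi.star_apply, Complex.star_def]
  simp [Complex.normSq_apply]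
  ring

theorem qv_add (M N : Matrix ι ι ℂ) (y : ι → ℂ) : qv (M + N) y = qv M y + qv N y := by
  simp [qv, add_mulVec, dotProduct_add]

theorem qv_sub (M N : Matrix ι ι ℂ) (y : ι → ℂ) : qv (M - N) y = qv M y - qv N y := by
  simp [qv, sub_mulVec, dotProduct_sub]

theorem qv_smul (c : ℝ) (M : Matrix ι ι ℂ) (y : ι → ℂ) : qv ((c : ℂ) • M) y = c * qv M y := by
  simp [qv, smul_mulVec, dotProduct_smul]

theorem qv_one (y : ι → ℂ) : qv (1 : Matrix ι ι ℂ) y = nsq y := by simp [qv, nsq_eq]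

theorem qv_gram {μ : Type} [Fintype μ] [DecidableEq μ] (A : Matrix ι μ ℂ) (y : ι → ℂ) :
    qv (A * Aᴴ) y = nsq (Aᴴ *ᵥ y) := by
  rw [qv, nsq_eq, ← mulVec_mulVec, dotProduct_mulVec, star_mulVec, conjTranspose_conjTranspose]

theorem qv_nonneg {M : Matrix ι ι ℂ} (h : M.PosSemidef) (y : ι → ℂ) : 0 ≤ qv M y :=
  (Complex.nonneg_iff.mp (h.dotProduct_mulVec_nonneg y)).1

theorem nsq_unitary {U : Matrix ι ι ℂ} (hU : U * Uᴴ = 1) (y : ι → ℂ) :
    nsq (Uᴴ *ᵥ y) = nsq y := by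
  rw [← qv_gram, hU, qv_one]

theorem eig_le_of_qv {M : Matrix ι ι ℂ} (h : M.IsHermitian) {c : ℝ}
    (hc : ∀ y, qv M y ≤ c * nsq y) (i : ι) : h.eigenvalues i ≤ c := by
  classical
  obtain ⟨U, hU, hU', hd⟩ := herm_decomp h
  have e : Uᴴ * M * U = diagonal fun i => ((h.eigenvalues i : ℝ) : ℂ) := by
    conv_lhs => rw [hd]
    rw [← Matrix.mul_assoc, ← Matrix.mul_assoc, hU', Matrix.one_mul, Matrix.mul_assoc, hU',
      Matrix.mul_one]
  have h1 := hc (U *ᵥ Pi.single i 1)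
  rw [qv_conj, e, qv_diag, ← nsq_unitary hU (U *ᵥ Pi.single i 1), mulVec_mulVec, hU',
    one_mulVec] at h1
  simpa [nsq, Pi.single_apply, apply_ite Complex.normSq] using h1

theorem qv_le_rtr {M : Matrix ι ι ℂ} (h : M.PosSemidef) (y : ι → ℂ) :
    qv M y ≤ rtr M * nsq y := by
  obtain ⟨U, hU, hU', hd⟩ := herm_decomp h.1
  have e : qv M y = ∑ i, h.1.eigenvalues i * Complex.normSq ((Uᴴ *ᵥ y) i) := by
    conv_lhs => rw [hd]
    rw [← qv_diag, qv_conj, conjTranspose_conjTranspose]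
  rw [e, rtr_eq_sum_eig h.1, ← nsq_unitary hU y, nsq, Finset.mul_sum]
  refine Finset.sum_le_sum fun i _ => mul_le_mul_of_nonneg_right ?_ (Complex.normSq_nonneg _)
  exact Finset.single_le_sum (fun j _ => h.eigenvalues_nonneg j) (Finset.mem_univ i)

/-- Number of eigenvalues above a level. -/
def nEig {M : Matrix ι ι ℂ} (h : M.IsHermitian) (x : ℝ) : ℕ :=
  (Finset.univ.filter fun i => x < h.eigenvalues i).card

/-- Counting comparison. -/
theorem count_le {P : Matrix κ κ ℂ} (hP : P.IsHermitian) (A : Matrix ι κ ℂ)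
    {Q : Matrix ι ι ℂ} (hQ : Q.IsHermitian) {x τ : ℝ}
    (key : ∀ y : ι → ℂ, τ * nsq y < qv Q y → x * nsq (Aᴴ *ᵥ y) < qv P (Aᴴ *ᵥ y)) :
    nEig hQ τ ≤ nEig hP x := by
  classical
  obtain ⟨U, hU, hU', hd⟩ := herm_decomp hP
  obtain ⟨V, hV, hV', hd'⟩ := herm_decomp hQ
  set N : Matrix κ ι ℂ := Uᴴ * Aᴴ * V with hN
  let L : ({i // τ < hQ.eigenvalues i} → ℂ) →ₗ[ℂ] ({i // x < hP.eigenvalues i} → ℂ) :=
    Matrix.mulVecLin (N.submatrix Subtype.val Subtype.val)
  have hinj : Function.Injective L := by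
    rw [injective_iff_map_eq_zero]
    intro c hc
    by_contra hne
    set d : ι → ℂ := fun i => if h : τ < hQ.eigenvalues i then c ⟨i, h⟩ else 0 with hdd
    have hy : τ * nsq (V *ᵥ d) < qv Q (V *ᵥ d) := by
      have e : Vᴴ * Q * V = diagonal fun i => ((hQ.eigenvalues i : ℝ) : ℂ) := by
        conv_lhs => rw [hd']
        rw [← Matrix.mul_assoc, ← Matrix.mul_assoc, hV', Matrix.one_mul, Matrix.mul_assoc, hV',
          Matrix.mul_one]
      rw [← nsq_unitary hV (V *ᵥ d), mulVec_mulVec, hV', one_mulVec, qv_conj, e, qv_diag, nsq,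
        Finset.mul_sum]
      obtain ⟨i0, hi0⟩ : ∃ i, c i ≠ 0 := by
        by_contra hh
        push Not at hh
        exact hne (funext hh)
      refine Finset.sum_lt_sum (fun i _ => ?_) ⟨i0.1, Finset.mem_univ _, ?_⟩
      · by_cases h : τ < hQ.eigenvalues i
        · exact mul_le_mul_of_nonneg_right h.le (Complex.normSq_nonneg _)
        · simp [hdd, h]
      · refine mul_lt_mul_of_pos_right i0.2 (Complex.normSq_pos.mpr ?_)
        simp only [hdd, i0.2, dite_true]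
        exact hi0
    have hk := key _ hy
    have hw : Uᴴ *ᵥ (Aᴴ *ᵥ (V *ᵥ d)) = N *ᵥ d := by
      rw [mulVec_mulVec, mulVec_mulVec, hN]
    have hPq : qv P (Aᴴ *ᵥ (V *ᵥ d))
        = ∑ i, hP.eigenvalues i * Complex.normSq ((N *ᵥ d) i) := by
      conv_lhs => arg 1; rw [hd]
      rw [← qv_diag, ← hw, qv_conj Uᴴ, conjTranspose_conjTranspose]
    rw [hPq, ← nsq_unitary hU (Aᴴ *ᵥ (V *ᵥ d)), hw, nsq, Finset.mul_sum] at hk
    refine absurd hk (not_lt.mpr (Finset.sum_le_sum fun i _ => ?_))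
    by_cases h : x < hP.eigenvalues i
    · have : (N *ᵥ d) i = 0 := by
        have h2 := congrFun hc ⟨i, h⟩
        simp only [L, Matrix.mulVecLin_apply, Matrix.mulVec, dotProduct, Matrix.submatrix_apply,
          Pi.zero_apply] at h2
        rw [Matrix.mulVec, dotProduct, ← h2]
        rw [← Finset.sum_filter_add_sum_filter_not Finset.univ (fun j => τ < hQ.eigenvalues j)]
        have z : ∑ j ∈ Finset.univ.filter (fun j => ¬τ < hQ.eigenvalues j), N i j * d j = 0 :=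
          Finset.sum_eq_zero fun j hj => by
            simp only [Finset.mem_filter] at hj
            simp [hdd, hj.2]
        rw [z, add_zero, Finset.sum_subtype (p := fun j => τ < hQ.eigenvalues j) _ (by simp)]
        exact Finset.sum_congr rfl fun j _ => by simp [hdd, j.2]
      simp [this]
    · exact mul_le_mul_of_nonneg_right (not_lt.mp h) (Complex.normSq_nonneg _)
  have := LinearMap.finrank_le_finrank_of_injective hinj
  simpa [nEig, Fintype.card_subtype] using this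

/-- Cauchy-Schwarz for a positive definite form. -/
theorem cs_inv {M : Matrix ι ι ℂ} (hM : M.PosDef) (w y : ι → ℂ) :
    (star y ⬝ᵥ w).re ^ 2 ≤ qv M⁻¹ w * qv M y := by
  by_cases hy : y = 0
  · subst hy; simp [qv]
  have hs : 0 < qv M y := hM.re_dotProduct_pos hy
  set l : ℝ := (star y ⬝ᵥ w).re / qv M y with hl
  have hu : IsUnit M.det := (Matrix.isUnit_iff_isUnit_det M).mp hM.isUnit
  have h := qv_nonneg hM.posSemidef (M⁻¹ *ᵥ w - (l : ℂ) • y)
  have e1 : M *ᵥ (M⁻¹ *ᵥ w - (l : ℂ) • y) = w - (l : ℂ) • (M *ᵥ y) := by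
    rw [mulVec_sub, mulVec_mulVec, Matrix.mul_nonsing_inv M hu, one_mulVec, mulVec_smul]
  have e2 : star (M⁻¹ *ᵥ w) ⬝ᵥ (M *ᵥ y) = star w ⬝ᵥ y := by
    rw [dot_conj, mulVec_mulVec, conjTranspose_nonsing_inv, hM.1.eq,
      Matrix.nonsing_inv_mul M hu, one_mulVec]
  have e3 : (star (M⁻¹ *ᵥ w) ⬝ᵥ w).re = qv M⁻¹ w := by
    rw [dot_conj, conjTranspose_nonsing_inv, hM.1.eq]
    rfl
  have e4 : (star w ⬝ᵥ y).re = (star y ⬝ᵥ w).re := by
    simp [dotProduct, Complex.re_sum]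
    exact Finset.sum_congr rfl fun i _ => by ring
  unfold qv at h
  rw [e1] at h
  simp only [star_sub, star_smul, sub_dotProduct, dotProduct_sub, smul_dotProduct,
    dotProduct_smul, Complex.sub_re, e2, Complex.star_def, Complex.conj_ofReal, smul_eq_mul,
    Complex.re_ofReal_mul, e3, e4] at h
  change 0 ≤ qv M⁻¹ w - l * (star y ⬝ᵥ w).re -
    l * ((star y ⬝ᵥ w).re - l * qv M y) at h
  have hle : l * qv M y = (star y ⬝ᵥ w).re := by
    rw [hl]; field_simp
  rw [hle] at h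
  have h5 : l * (star y ⬝ᵥ w).re ≤ qv M⁻¹ w := by linarith
  have h6 := mul_le_mul_of_nonneg_right h5 hs.le
  calc (star y ⬝ᵥ w).re ^ 2 = l * qv M y * (star y ⬝ᵥ w).re := by rw [hle]; ring
    _ ≤ qv M⁻¹ w * qv M y := by linarith

theorem posDef_shift {M : Matrix ι ι ℂ} (h : M.PosSemidef) {t : ℝ} (ht : 0 < t) :
    ((t : ℂ) • (1 : Matrix ι ι ℂ) + M).PosDef :=
  (PosDef.one.smul (by exact_mod_cast ht : (0 : ℂ) < (t : ℂ))).add_posSemidef h

/-- The pushed-forward resolvent. -/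
def pres (A : Matrix ι κ ℂ) (β : Matrix ι ι ℂ) (t : ℝ) : Matrix κ κ ℂ :=
  Aᴴ * ((t : ℂ) • (1 : Matrix ι ι ℂ) + β)⁻¹ * A

theorem pres_psd (A : Matrix ι κ ℂ) {β : Matrix ι ι ℂ} (hβ : β.PosSemidef) {t : ℝ} (ht : 0 < t) :
    (pres A β t).PosSemidef :=
  ((posDef_shift hβ ht).inv.posSemidef).conjTranspose_mul_mul_same A

theorem pres_key (A : Matrix ι κ ℂ) {β : Matrix ι ι ℂ} (hβ : β.PosSemidef) {t x : ℝ} (ht : 0 < t)
    (hx : 0 < x) (y : ι → ℂ) (h : x * (t * nsq y + qv β y) < nsq (Aᴴ *ᵥ y)) :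
    x * nsq (Aᴴ *ᵥ y) < qv (pres A β t) (Aᴴ *ᵥ y) := by
  set M : Matrix ι ι ℂ := (t : ℂ) • (1 : Matrix ι ι ℂ) + β with hMd
  have hM : qv M y = t * nsq y + qv β y := by rw [hMd, qv_add, qv_smul, qv_one]
  have hcs := cs_inv (posDef_shift hβ ht) (A *ᵥ (Aᴴ *ᵥ y)) y
  have e1 : (star y ⬝ᵥ A *ᵥ (Aᴴ *ᵥ y)).re = nsq (Aᴴ *ᵥ y) := by
    rw [← qv_gram, qv, mulVec_mulVec]
  have e2 : qv M⁻¹ (A *ᵥ (Aᴴ *ᵥ y)) = qv (pres A β t) (Aᴴ *ᵥ y) := by
    rw [qv_conj, pres]
  rw [e1, e2, hM] at hcs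
  have hn : 0 < nsq (Aᴴ *ᵥ y) := by
    have h0 : 0 ≤ x * (t * nsq y + qv β y) := by
      have := nsq_nonneg y; have := qv_nonneg hβ y; positivity
    linarith
  rcases le_or_gt (qv (pres A β t) (Aᴴ *ᵥ y)) (x * nsq (Aᴴ *ᵥ y)) with hc | hc
  · exfalso
    have h0 : 0 ≤ t * nsq y + qv β y := by
      have := nsq_nonneg y; have := qv_nonneg hβ y; positivity
    have := mul_le_mul_of_nonneg_right hc h0
    have := mul_lt_mul_of_pos_left h hn
    nlinarith
  · exact hc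

/-! ## log det -/

/-- Logarithm of the determinant. -/
def ld (M : Matrix ι ι ℂ) : ℝ := Real.log M.det.re

/-- Functional calculus in a given basis. -/
def fc (U : Matrix ι ι ℂ) (a : ι → ℝ) : Matrix ι ι ℂ :=
  U * diagonal (fun i => ((a i : ℝ) : ℂ)) * Uᴴ

theorem fc_add (U : Matrix ι ι ℂ) (a b : ι → ℝ) : fc U (fun i => a i + b i) = fc U a + fc U b := by
  rw [fc, fc, fc, ← Matrix.add_mul, ← Matrix.mul_add, diagonal_add]
  simp

theorem fc_psd (U : Matrix ι ι ℂ) {a : ι → ℝ} (ha : ∀ i, 0 ≤ a i) : (fc U a).PosSemidef :=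
  (PosSemidef.diagonal (d := fun i => ((a i : ℝ) : ℂ))
    (fun i => by simpa using ha i)).mul_mul_conjTranspose_same U

theorem fc_const {U : Matrix ι ι ℂ} (hU : U * Uᴴ = 1) (c : ℝ) :
    fc U (fun _ => c) = (c : ℂ) • (1 : Matrix ι ι ℂ) := by
  rw [fc, ← smul_one_eq_diagonal, Matrix.mul_smul, Matrix.smul_mul, Matrix.mul_one, hU]

theorem rtr_fc {U : Matrix ι ι ℂ} (hU' : Uᴴ * U = 1) (a : ι → ℝ) : rtr (fc U a) = ∑ i, a i := by
  rw [fc, rtr, Matrix.trace_mul_comm, ← Matrix.mul_assoc, hU', Matrix.one_mul, trace_diagonal]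
  simp

theorem ld_step {B D : Matrix ι ι ℂ} (hB : B.PosDef) (hD : D.PosSemidef) {c : ℝ}
    (hc : ((c : ℂ) • (1 : Matrix ι ι ℂ) - (B + D)).PosSemidef) :
    ld B + rtr D / c ≤ ld (B + D) := by
  classical
  rcases isEmpty_or_nonempty ι with he | hι
  · simp [ld, rtr, Matrix.trace]
  have hA : (B + D).PosDef := hB.add_posSemidef hD
  obtain ⟨U, hU, hU', hd⟩ := herm_decomp hA.1
  set a := hA.1.eigenvalues with ha
  have hapos : ∀ i, 0 < a i := hA.eigenvalues_pos
  have hac : ∀ i, a i ≤ c := fun i => eig_le_of_qv hA.1 (fun y => by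
    have h := qv_nonneg hc y
    rw [qv_sub, qv_smul, qv_one] at h
    linarith) i
  have hdet : U.det * Uᴴ.det = 1 := by rw [← det_mul, hU, det_one]
  set W : Matrix ι ι ℂ := diagonal fun i => (((Real.sqrt (a i))⁻¹ : ℝ) : ℂ) with hW
  set B' := Uᴴ * B * U with hB'
  set D' := Uᴴ * D * U with hD'
  have hsum : B' + D' = diagonal fun i => ((a i : ℝ) : ℂ) := by
    rw [hB', hD', ← Matrix.add_mul, ← Matrix.mul_add]
    conv_lhs => rw [hd]
    rw [← Matrix.mul_assoc, ← Matrix.mul_assoc, hU', Matrix.one_mul, Matrix.mul_assoc, hU',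
      Matrix.mul_one]
  have hWh : Wᴴ = W := by
    rw [hW, diagonal_conjTranspose]
    congr 1; ext i; simp
  set K := W * B' * W with hK
  have hB'p : B'.PosSemidef := hB.posSemidef.conjTranspose_mul_mul_same U
  have hKp : K.PosSemidef := by
    have := hB'p.conjTranspose_mul_mul_same W
    rwa [hWh] at this
  have hKdet : K.det = ((∏ i, (a i)⁻¹ : ℝ) : ℂ) * B.det := by
    rw [hK, hB', det_mul, det_mul, det_mul, det_mul, hW, det_diagonal]
    have e : ∀ i, (((Real.sqrt (a i))⁻¹ : ℝ) : ℂ) * (((Real.sqrt (a i))⁻¹ : ℝ) : ℂ)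
        = (((a i)⁻¹ : ℝ) : ℂ) := fun i => by
      rw [← Complex.ofReal_mul, ← mul_inv, Real.mul_self_sqrt (hapos i).le]
    rw [Complex.ofReal_prod, ← Finset.prod_congr rfl (fun i _ => e i), Finset.prod_mul_distrib]
    linear_combination ((∏ i, (((Real.sqrt (a i))⁻¹ : ℝ) : ℂ)) ^ 2 * B.det) * hdet
  have hBdet : 0 < B.det.re := (Complex.pos_iff.mp hB.det_pos).1
  have hKre : K.det.re = (∏ i, (a i)⁻¹) * B.det.re := by rw [hKdet, Complex.re_ofReal_mul]
  have hPi : 0 < ∏ i, (a i)⁻¹ := Finset.prod_pos fun i _ => inv_pos.mpr (hapos i)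
  have hKeig : K.det.re = ∏ i, hKp.1.eigenvalues i := by
    rw [hKp.1.det_eq_prod_eigenvalues]
    change (∏ i, Complex.ofReal (hKp.1.eigenvalues i)).re = _
    rw [← Complex.ofReal_prod, Complex.ofReal_re]
  have hne : ∀ i, hKp.1.eigenvalues i ≠ 0 := by
    intro i hi
    have : ∏ i, hKp.1.eigenvalues i = 0 := Finset.prod_eq_zero (Finset.mem_univ i) hi
    rw [← hKeig, hKre] at this
    nlinarith
  have h1 : Real.log K.det.re ≤ rtr K - Fintype.card ι := by
    rw [hKeig, Real.log_prod fun i _ => hne i, rtr_eq_sum_eig hKp.1]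
    calc ∑ i, Real.log (hKp.1.eigenvalues i) ≤ ∑ i, (hKp.1.eigenvalues i - 1) :=
          Finset.sum_le_sum fun i _ => Real.log_le_sub_one_of_pos
            (lt_of_le_of_ne (hKp.eigenvalues_nonneg i) (hne i).symm)
      _ = _ := by simp [Finset.sum_sub_distrib]
  have h2 : ∀ i, (K i i).re = 1 - (D' i i).re / a i := by
    intro i
    have e : (B' i i).re + (D' i i).re = a i := by
      simpa using congrArg (fun M : Matrix ι ι ℂ => (M i i).re) hsum
    rw [hK, hW, mul_diagonal, diagonal_mul, mul_comm _ (B' i i), mul_assoc, ← Complex.ofReal_mul,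
      ← mul_inv, Real.mul_self_sqrt (hapos i).le, Complex.re_mul_ofReal]
    have := hapos i
    field_simp
    linarith
  have hD'p : D'.PosSemidef := hD.conjTranspose_mul_mul_same U
  have h3 : rtr K - Fintype.card ι ≤ -(rtr D / c) := by
    rw [rtr_eq_sum_diag, Finset.sum_congr rfl fun i _ => h2 i, ← rtr_conj D hU, rtr_eq_sum_diag,
      Finset.sum_sub_distrib, Finset.sum_div]
    simp only [Finset.sum_const, Finset.card_univ, nsmul_eq_mul, mul_one]
    have : ∑ i, (D' i i).re / c ≤ ∑ i, (D' i i).re / a i := Finset.sum_le_sum fun i _ =>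
      div_le_div_of_nonneg_left (Complex.nonneg_iff.mp hD'p.diag_nonneg).1 (hapos i) (hac i)
    linarith
  have hAdet : ld (B + D) = ∑ i, Real.log (a i) := by
    rw [ld, hA.1.det_eq_prod_eigenvalues]
    change Real.log (∏ i, Complex.ofReal (a i)).re = _
    rw [← Complex.ofReal_prod, Complex.ofReal_re, Real.log_prod fun i _ => (hapos i).ne']
  rw [hKre, Real.log_mul hPi.ne' hBdet.ne', Real.log_prod
    (fun i _ => inv_ne_zero (hapos i).ne')] at h1
  simp only [Real.log_inv, Finset.sum_neg_distrib] at h1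
  rw [hAdet, ld]
  linarith

end

end Vale.Agent.P358
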