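import Mathlib.Analysis.Matrix.Spectrum
import Mathlib.Analysis.Matrix.PosDef
import Mathlib.Analysis.SpecialFunctions.BinaryEntropy
import Mathlib.Data.Matrix.Basis

/-! # Definitions for the classical capacity of the generalized amplitude-damping channel -/

namespace Vale.Agent.P358

open Matrix Real
open scoped ComplexOrder

noncomputable section

/-- The generalized amplitude-damping channel, as a linear map on all 2 by 2 matrices. -/
def gadc (g v : ℝ) (X : Matrix (Fin 2) (Fin 2) ℂ) : Matrix (Fin 2) (Fin 2) ℂ :=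
  !![((1 - g * v : ℝ) : ℂ) * X 0 0 + ((g * (1 - v) : ℝ) : ℂ) * X 1 1,
      (Real.sqrt (1 - g) : ℂ) * X 0 1;
     (Real.sqrt (1 - g) : ℂ) * X 1 0,
      ((g * v : ℝ) : ℂ) * X 0 0 + ((1 - g + g * v : ℝ) : ℂ) * X 1 1]

/-- The tensor power of the channel, given by its matrix entries. -/
def tpow (g v : ℝ) (n : ℕ) (ρ : Matrix (Fin n → Fin 2) (Fin n → Fin 2) ℂ) :
    Matrix (Fin n → Fin 2) (Fin n → Fin 2) ℂ :=
  fun i j => ∑ i', ∑ j', (∏ l, gadc g v (Matrix.single (i' l) (j' l) 1) (i l) (j l)) * ρ i' j'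

/-- Von Neumann entropy in bits. -/
def vnEntropy {ι : Type} [Fintype ι] [DecidableEq ι] (M : Matrix ι ι ℂ) : ℝ :=
  if h : M.IsHermitian then (∑ i, negMulLog (h.eigenvalues i)) / Real.log 2 else 0

/-- A density matrix. -/
def IsDensity {ι : Type} [Fintype ι] (ρ : Matrix ι ι ℂ) : Prop := ρ.PosSemidef ∧ ρ.trace = 1

/-- The Holevo quantities of all finite ensembles of states on the n-fold input space. -/
def holevoValues (g v : ℝ) (n : ℕ) : Set ℝ :=
  {x | ∃ (k : ℕ) (p : Fin k → ℝ) (ρ : Fin k → Matrix (Fin n → Fin 2) (Fin n → Fin 2) ℂ),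
    (∀ a, 0 ≤ p a) ∧ ∑ a, p a = 1 ∧ (∀ a, IsDensity (ρ a)) ∧
    x = vnEntropy (∑ a, (p a : ℂ) • tpow g v n (ρ a))
        - ∑ a, p a * vnEntropy (tpow g v n (ρ a))}

/-- Binary entropy in bits. -/
def h2 (x : ℝ) : ℝ := Real.binEntropy x / Real.log 2

/-- Output excited-state population. -/
def tout (g v q : ℝ) : ℝ := (1 - g) * q + g * v

/-- Squared Bloch radius of the output of a pure input with excited population q. -/
def rad (g v q : ℝ) : ℝ := (1 - 2 * tout g v q) ^ 2 + 4 * (1 - g) * q * (1 - q)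

/-- The one-parameter Holevo expression. -/
def chiOne (g v q : ℝ) : ℝ := h2 (tout g v q) - h2 ((1 - Real.sqrt (rad g v q)) / 2)

end

end Vale.Agent.P358
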