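import Mathlib.Analysis.Matrix.Spectrum
import Mathlib.Analysis.Matrix.PosDef
import Mathlib.Analysis.SpecialFunctions.Log.NegMulLog
import Mathlib.Analysis.Convex.Jensen
import Mathlib.LinearAlgebra.Matrix.Charpoly.Coeff

/-! # Elementary properties of the von Neumann entropy of matrices -/

namespace Vale.Agent.P358

open Matrix Real
open scoped ComplexOrder

noncomputable section

variable {ι κ : Type} [Fintype ι] [DecidableEq ι] [Fintype κ] [DecidableEq κ]

/-- Sum of `negMulLog` of the eigenvalues (entropy in nats). -/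
def ent (M : Matrix ι ι ℂ) : ℝ :=
  if h : M.IsHermitian then ∑ i, negMulLog (h.eigenvalues i) else 0

/-- Real part of the trace. -/
def rtr (M : Matrix ι ι ℂ) : ℝ := M.trace.re

/-- Homogenised entropy. -/
def gap (M : Matrix ι ι ℂ) : ℝ := ent M - negMulLog (rtr M)

theorem eig_sum_of_charpoly {M : Matrix ι ι ℂ} (h : M.IsHermitian) (d : κ → ℝ)
    (hc : M.charpoly = ∏ k, (Polynomial.X - Polynomial.C ((d k : ℝ) : ℂ))) (φ : ℝ → ℝ) :
    ∑ i, φ (h.eigenvalues i) = ∑ k, φ (d k) := by
  have h1 := h.roots_charpoly_eq_eigenvalues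
  have h2 : M.charpoly.roots = Multiset.map (fun k => ((d k : ℝ) : ℂ)) Finset.univ.val := by
    rw [hc, Polynomial.roots_prod _ _ ]
    · simp
    · exact Finset.prod_ne_zero_iff.mpr fun k _ => Polynomial.X_sub_C_ne_zero _
  rw [h1] at h2
  have h3 := congrArg (fun s : Multiset ℂ => (s.map fun z => φ z.re).sum) h2
  simpa [Multiset.map_map, Function.comp_def] using h3

theorem ent_of_charpoly {M : Matrix ι ι ℂ} (h : M.IsHermitian) (d : κ → ℝ)
    (hc : M.charpoly = ∏ k, (Polynomial.X - Polynomial.C ((d k : ℝ) : ℂ))) :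
    ent M = ∑ k, negMulLog (d k) := by
  rw [ent, dif_pos h, eig_sum_of_charpoly h d hc]

theorem charpoly_conj_diag (U V : Matrix ι ι ℂ) (hVU : V * U = 1) (d : ι → ℂ) :
    (U * diagonal d * V).charpoly = ∏ k, (Polynomial.X - Polynomial.C (d k)) := by
  rw [Matrix.mul_assoc, Matrix.charpoly_mul_comm, Matrix.mul_assoc, hVU, Matrix.mul_one,
    Matrix.charpoly_diagonal]

theorem herm_decomp {M : Matrix ι ι ℂ} (h : M.IsHermitian) :
    ∃ U : Matrix ι ι ℂ, U * Uᴴ = 1 ∧ Uᴴ * U = 1 ∧
      M = U * diagonal (fun i => ((h.eigenvalues i : ℝ) : ℂ)) * Uᴴ := by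
  refine ⟨h.eigenvectorUnitary, ?_, ?_, ?_⟩
  · exact Unitary.mul_star_self_of_mem h.eigenvectorUnitary.2
  · exact Unitary.star_mul_self_of_mem h.eigenvectorUnitary.2
  · conv_lhs => rw [h.spectral_theorem]
    rfl

theorem conj_diag_apply (U : Matrix ι ι ℂ) (d : ι → ℝ) (i : ι) :
    ((U * diagonal (fun j => ((d j : ℝ) : ℂ)) * Uᴴ) i i).re = ∑ j, Complex.normSq (U i j) * d j := by
  rw [Matrix.mul_apply, Complex.re_sum]
  refine Finset.sum_congr rfl fun j _ => ?_
  rw [Matrix.mul_diagonal, conjTranspose_apply, Complex.star_def]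
  simp [Complex.normSq_apply]
  ring

theorem normSq_row {U : Matrix ι ι ℂ} (hU : U * Uᴴ = 1) (i : ι) :
    ∑ j, Complex.normSq (U i j) = 1 := by
  have h := conj_diag_apply U (fun _ => 1) i
  simp only [Complex.ofReal_one, diagonal_one, Matrix.mul_one, mul_one, hU,
    Matrix.one_apply_eq, Complex.one_re] at h
  exact h.symm

theorem ent_le_diag {M : Matrix ι ι ℂ} (hM : M.PosSemidef) :
    ent M ≤ ∑ i, negMulLog ((M i i).re) := by
  obtain ⟨U, hU, hU', hd⟩ := herm_decomp hM.1
  have e : ∀ i, (M i i).re = ∑ j, Complex.normSq (U i j) * hM.1.eigenvalues j := fun i => by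
    conv_lhs => rw [hd]
    exact conj_diag_apply U _ i
  rw [ent, dif_pos hM.1]
  calc ∑ j, negMulLog (hM.1.eigenvalues j)
      = ∑ j, (∑ i, Complex.normSq (U i j)) * negMulLog (hM.1.eigenvalues j) := by
        refine Finset.sum_congr rfl fun j _ => ?_
        have h := normSq_row (U := Uᴴ) (by rw [conjTranspose_conjTranspose, hU']) j
        simp only [conjTranspose_apply, Complex.star_def, Complex.normSq_conj] at h
        rw [h, one_mul]
    _ = ∑ i, ∑ j, Complex.normSq (U i j) • negMulLog (hM.1.eigenvalues j) := by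
        simp only [Finset.sum_mul, smul_eq_mul]
        exact Finset.sum_comm
    _ ≤ ∑ i, negMulLog ((M i i).re) := by
        refine Finset.sum_le_sum fun i _ => ?_
        rw [e]
        have := concaveOn_negMulLog.le_map_sum (t := Finset.univ)
          (w := fun j => Complex.normSq (U i j)) (p := fun j => hM.1.eigenvalues j)
          (fun j _ => Complex.normSq_nonneg _) (normSq_row hU i)
          (fun j _ => hM.eigenvalues_nonneg j)
        simpa [smul_eq_mul] using this

theorem ent_conj {M : Matrix ι ι ℂ} (hM : M.IsHermitian) {U : Matrix ι ι ℂ} (hU : U * Uᴴ = 1) :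
    ent (Uᴴ * M * U) = ent M := by
  have h' : (Uᴴ * M * U).IsHermitian := isHermitian_conjTranspose_mul_mul U hM
  rw [ent_of_charpoly h' hM.eigenvalues, ent, dif_pos hM]
  rw [Matrix.mul_assoc, Matrix.charpoly_mul_comm, Matrix.mul_assoc, hU, Matrix.mul_one,
    hM.charpoly_eq]
  rfl

theorem rtr_conj (M : Matrix ι ι ℂ) {U : Matrix ι ι ℂ} (hU : U * Uᴴ = 1) :
    rtr (Uᴴ * M * U) = rtr M := by
  rw [rtr, rtr, Matrix.mul_assoc, Matrix.trace_mul_comm, Matrix.mul_assoc, hU, Matrix.mul_one]

theorem rtr_add (A B : Matrix ι ι ℂ) : rtr (A + B) = rtr A + rtr B := by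
  simp [rtr, Matrix.trace_add]

theorem rtr_nonneg {A : Matrix ι ι ℂ} (hA : A.PosSemidef) : 0 ≤ rtr A :=
  (Complex.nonneg_iff.mp hA.trace_nonneg).1

theorem rtr_eq_sum_diag (A : Matrix ι ι ℂ) : rtr A = ∑ i, (A i i).re := by
  simp [rtr, Matrix.trace]

theorem rtr_eq_sum_eig {A : Matrix ι ι ℂ} (h : A.IsHermitian) :
    rtr A = ∑ i, h.eigenvalues i := by
  rw [rtr, h.trace_eq_sum_eigenvalues]
  simp

theorem mix_tangent {a b S T : ℝ} (ha : 0 ≤ a) (hb : 0 ≤ b) (hS : 0 < S) (hT : 0 < T) :
    a * log (S / (S + T)) + b * log (T / (S + T)) ≤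
      negMulLog (a + b) - negMulLog a - negMulLog b := by
  have one : ∀ x y X : ℝ, 0 ≤ x → 0 ≤ y → 0 < X →
      x * log (X / (S + T)) + x - (x + y) * (X / (S + T)) ≤ x * log x - x * log (x + y) := by
    intro x y X hx hy hX
    rcases eq_or_lt_of_le hx with h | h
    · subst h
      have : 0 ≤ y * (X / (S + T)) := by positivity
      simp only [zero_mul, zero_add, sub_self]
      linarith
    · have hxy : 0 < x + y := by linarith
      have hz : 0 < X / (S + T) := by positivity
      have := Real.log_le_sub_one_of_pos (x := (X / (S + T)) * (x + y) / x) (by positivity)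
      rw [Real.log_div (by positivity) h.ne', Real.log_mul hz.ne' hxy.ne'] at this
      have h2 := mul_le_mul_of_nonneg_left this hx
      have e : x * ((X / (S + T)) * (x + y) / x - 1) = (x + y) * (X / (S + T)) - x := by
        field_simp
      rw [e] at h2
      linarith
  have h1 := one a b S ha hb hS
  have h2 := one b a T hb ha hT
  have e : S / (S + T) + T / (S + T) = 1 := by field_simp
  have e2 : (a + b) * (S / (S + T)) + (b + a) * (T / (S + T)) = a + b := by
    rw [add_comm b a, ← mul_add, e, mul_one]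
  rw [add_comm b a] at h2
  simp only [negMulLog]
  linarith

theorem gap_add {A B : Matrix ι ι ℂ} (hA : A.PosSemidef) (hB : B.PosSemidef) :
    gap A + gap B ≤ gap (A + B) := by
  rcases eq_or_lt_of_le (rtr_nonneg hA) with h | hS
  · have : A = 0 := by
      rw [← hA.trace_eq_zero_iff]
      exact Complex.ext h.symm (Complex.nonneg_iff.mp hA.trace_nonneg).2.symm
    subst this
    have : gap (0 : Matrix ι ι ℂ) = 0 := by
      simp [gap, rtr, ent, (Matrix.IsHermitian.eigenvalues_eq_zero_iff _).mpr]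
    rw [this, zero_add, zero_add]
  rcases eq_or_lt_of_le (rtr_nonneg hB) with h | hT
  · have : B = 0 := by
      rw [← hB.trace_eq_zero_iff]
      exact Complex.ext h.symm (Complex.nonneg_iff.mp hB.trace_nonneg).2.symm
    subst this
    have : gap (0 : Matrix ι ι ℂ) = 0 := by
      simp [gap, rtr, ent, (Matrix.IsHermitian.eigenvalues_eq_zero_iff _).mpr]
    rw [this, add_zero, add_zero]
  obtain ⟨U, hU, hU', hd⟩ := herm_decomp (hA.add hB).1
  set lam := (hA.add hB).1.eigenvalues with hlam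
  set A' := Uᴴ * A * U with hA'
  set B' := Uᴴ * B * U with hB'
  have hA'p : A'.PosSemidef := hA.conjTranspose_mul_mul_same U
  have hB'p : B'.PosSemidef := hB.conjTranspose_mul_mul_same U
  have hsum : ∀ i, lam i = (A' i i).re + (B' i i).re := by
    intro i
    have e : A' + B' = diagonal (fun i => ((lam i : ℝ) : ℂ)) := by
      rw [hA', hB', ← Matrix.add_mul, ← Matrix.mul_add]
      conv_lhs => rw [hd]
      rw [← Matrix.mul_assoc, ← Matrix.mul_assoc, hU', Matrix.one_mul, Matrix.mul_assoc, hU',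
        Matrix.mul_one]
    have := congrArg (fun M : Matrix ι ι ℂ => (M i i).re) e
    simpa using this.symm
  have h0 : ∀ {C : Matrix ι ι ℂ}, C.PosSemidef → ∀ i, 0 ≤ (C i i).re :=
    fun hC i => (Complex.nonneg_iff.mp hC.diag_nonneg).1
  have eA : ent A = ent A' := (ent_conj hA.1 hU).symm
  have eB : ent B = ent B' := (ent_conj hB.1 hU).symm
  have tA : ∑ i, (A' i i).re = rtr A := by rw [← rtr_eq_sum_diag, rtr_conj A hU]
  have tB : ∑ i, (B' i i).re = rtr B := by rw [← rtr_eq_sum_diag, rtr_conj B hU]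
  have h1 := Finset.sum_le_sum (s := Finset.univ) fun i _ =>
    mix_tangent (h0 hA'p i) (h0 hB'p i) hS hT
  rw [Finset.sum_add_distrib, ← Finset.sum_mul, ← Finset.sum_mul, tA, tB, Finset.sum_sub_distrib,
    Finset.sum_sub_distrib] at h1
  have h2 : ent (A + B) = ∑ i, negMulLog ((A' i i).re + (B' i i).re) := by
    rw [ent, dif_pos (hA.add hB).1]
    simp only [← hsum, hlam]
  have h3 := ent_le_diag hA'p
  have h4 := ent_le_diag hB'p
  simp only [gap, rtr_add]
  rw [eA, eB, h2]
  rw [Real.log_div hS.ne' (by linarith), Real.log_div hT.ne' (by linarith)] at h1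
  simp only [negMulLog] at h1 h3 h4 ⊢
  linarith

theorem gap_zero : gap (0 : Matrix ι ι ℂ) = 0 := by
  simp [gap, rtr, ent, (Matrix.IsHermitian.eigenvalues_eq_zero_iff _).mpr]

theorem gap_sum {α : Type} (s : Finset α) (A : α → Matrix ι ι ℂ) (hA : ∀ a, (A a).PosSemidef) :
    ∑ a ∈ s, gap (A a) ≤ gap (∑ a ∈ s, A a) := by
  classical
  induction s using Finset.induction_on with
  | empty => simp [gap_zero]
  | insert a s ha ih =>
    rw [Finset.sum_insert ha, Finset.sum_insert ha]
    exact (add_le_add_right ih _).trans (gap_add (hA a) (posSemidef_sum s fun b _ => hA b))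

theorem rtr_smul (M : Matrix ι ι ℂ) (c : ℝ) : rtr ((c : ℂ) • M) = c * rtr M := by
  simp [rtr, Matrix.trace_smul]

theorem gap_smul {M : Matrix ι ι ℂ} (h : M.IsHermitian) (c : ℝ) :
    gap ((c : ℂ) • M) = c * gap M := by
  obtain ⟨U, hU, hU', hd⟩ := herm_decomp h
  have e : (c : ℂ) • M = U * diagonal (fun i => ((c * h.eigenvalues i : ℝ) : ℂ)) * Uᴴ := by
    conv_lhs => rw [hd]
    rw [← Matrix.smul_mul, ← Matrix.mul_smul, ← Matrix.diagonal_smul]
    congr 3
    ext i
    simp
  have h' : ((c : ℂ) • M).IsHermitian := h.smul (by simp [IsSelfAdjoint])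
  rw [gap, gap, ent_of_charpoly h' (fun i => c * h.eigenvalues i), rtr_smul, ent, dif_pos h]
  · simp only [negMulLog_mul, Finset.sum_add_distrib, ← Finset.mul_sum, ← Finset.sum_mul]
    rw [rtr_eq_sum_eig h]
    ring
  · rw [e]
    exact charpoly_conj_diag U Uᴴ hU' _

theorem ent_reindex (e : ι ≃ κ) {M : Matrix ι ι ℂ} (h : M.IsHermitian) :
    ent (Matrix.reindex e e M) = ent M := by
  have h' : (Matrix.reindex e e M).IsHermitian := by
    simpa [Matrix.reindex_apply] using h.submatrix e.symm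
  rw [ent_of_charpoly h' h.eigenvalues, ent, dif_pos h]
  rw [Matrix.charpoly_reindex, h.charpoly_eq]
  rfl

theorem rtr_reindex (e : ι ≃ κ) (M : Matrix ι ι ℂ) : rtr (Matrix.reindex e e M) = rtr M := by
  simp only [rtr, Matrix.trace, Matrix.diag, Matrix.reindex_apply, Matrix.submatrix_apply]
  rw [Equiv.sum_comp e.symm (fun i => M i i)]

theorem gap_reindex (e : ι ≃ κ) {M : Matrix ι ι ℂ} (h : M.IsHermitian) :
    gap (Matrix.reindex e e M) = gap M := by
  rw [gap, gap, ent_reindex e h, rtr_reindex]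

theorem ent_blockDiag {A : Matrix ι ι ℂ} {D : Matrix κ κ ℂ} (hA : A.IsHermitian)
    (hD : D.IsHermitian) : ent (fromBlocks A 0 0 D) = ent A + ent D := by
  have h : (fromBlocks A 0 0 D).IsHermitian :=
    Matrix.IsHermitian.fromBlocks hA (by simp) hD
  rw [ent_of_charpoly h (Sum.elim hA.eigenvalues hD.eigenvalues), ent, ent, dif_pos hA, dif_pos hD]
  · rw [Fintype.sum_sum_type]
    rfl
  · rw [Matrix.charpoly_fromBlocks_zero₁₂, hA.charpoly_eq, hD.charpoly_eq, Fintype.prod_sum_type]
    rfl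

end

end Vale.Agent.P358
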