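import Vale.Agent.P358.Count

/-! # The staircase lower bound -/

namespace Vale.Agent.P358

open Matrix Real
open scoped ComplexOrder

noncomputable section

variable {ι κ : Type} [Fintype ι] [DecidableEq ι] [Fintype κ] [DecidableEq κ]

/-- Staircase approximation of the identity. -/
def stair (p : ℕ → ℝ) (j : ℕ) (l : ℝ) : ℝ :=
  min l (p 0) + ∑ i ∈ Finset.range j, (p (i + 1) - p i) * (if p (i + 1) < l then 1 else 0)

theorem stair_succ (p : ℕ → ℝ) (j : ℕ) (l : ℝ) :
    stair p (j + 1) l = stair p j l + (p (j + 1) - p j) * (if p (j + 1) < l then 1 else 0) := by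
  rw [stair, stair, Finset.sum_range_succ, add_assoc]

theorem stair_bounds (p : ℕ → ℝ) (n : ℕ) (hp0 : 0 ≤ p 0) (hp : ∀ j < n, p j ≤ p (j + 1)) {l : ℝ}
    (hl : 0 ≤ l) : ∀ j, j ≤ n → 0 ≤ stair p j l ∧ stair p j l ≤ l ∧ stair p j l ≤ p j := by
  intro j
  induction j with
  | zero => intro _; simp [stair, le_min hl hp0]
  | succ j ih =>
    intro hj
    obtain ⟨h1, h2, h3⟩ := ih (by omega)
    have := hp j (by omega)
    rw [stair_succ]
    split_ifs with hc
    · simp only [mul_one]
      exact ⟨by linarith, by linarith, by linarith⟩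
    · simp only [mul_zero, add_zero]
      exact ⟨h1, h2, by linarith⟩

theorem fc_sub (U : Matrix ι ι ℂ) (a b : ι → ℝ) : fc U (fun i => a i - b i) = fc U a - fc U b := by
  have := fc_add U (fun i => a i - b i) b
  simp only [sub_add_cancel] at this
  exact eq_sub_of_add_eq this.symm

theorem nEig_eq_sum {M : Matrix ι ι ℂ} (h : M.IsHermitian) (x : ℝ) :
    (nEig h x : ℝ) = ∑ i, (if x < h.eigenvalues i then (1 : ℝ) else 0) := by
  rw [Finset.sum_boole]; rfl

theorem ladder {P R : Matrix ι ι ℂ} (hP : P.PosSemidef) (hR : R.PosSemidef) (p r : ℕ → ℝ) (n : ℕ)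
    (hp0 : 0 ≤ p 0) (hr0 : 0 ≤ r 0) (hp : ∀ j < n, p j ≤ p (j + 1))
    (hr : ∀ j < n, r j ≤ r (j + 1)) :
    ((∑ i, min (hP.1.eigenvalues i) (p 0)) + ∑ i, min (hR.1.eigenvalues i) (r 0)) /
        (1 + p 0 + r 0) +
      ∑ j ∈ Finset.range n,
        ((p (j + 1) - p j) * nEig hP.1 (p (j + 1)) + (r (j + 1) - r j) * nEig hR.1 (r (j + 1))) /
          (1 + p (j + 1) + r (j + 1)) ≤ ld (1 + P + R) := by
  obtain ⟨U, hU, hU', hdP⟩ := herm_decomp hP.1
  obtain ⟨V, hV, hV', hdR⟩ := herm_decomp hR.1
  set a := hP.1.eigenvalues with ha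
  set b := hR.1.eigenvalues with hb
  have ha0 : ∀ i, 0 ≤ a i := hP.eigenvalues_nonneg
  have hb0 : ∀ i, 0 ≤ b i := hR.eigenvalues_nonneg
  set G : ℕ → Matrix ι ι ℂ := fun j =>
    1 + fc U (fun i => stair p j (a i)) + fc V (fun i => stair r j (b i)) with hG
  have hGpd : ∀ j, j ≤ n → (G j).PosDef := fun j hj =>
    (PosDef.one.add_posSemidef (fc_psd U fun i => (stair_bounds p n hp0 hp (ha0 i) j hj).1)
      ).add_posSemidef (fc_psd V fun i => (stair_bounds r n hr0 hr (hb0 i) j hj).1)
  have hcap : ∀ j, j ≤ n →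
      (((1 + p j + r j : ℝ) : ℂ) • (1 : Matrix ι ι ℂ) - G j).PosSemidef := by
    intro j hj
    have e : ((1 + p j + r j : ℝ) : ℂ) • (1 : Matrix ι ι ℂ) - G j
        = fc U (fun i => p j - stair p j (a i)) + fc V (fun i => r j - stair r j (b i)) := by
      rw [fc_sub, fc_sub, fc_const hU, fc_const hV, hG]
      push_cast
      simp only [add_smul, one_smul]
      abel
    rw [e]
    exact (fc_psd U fun i => by linarith [(stair_bounds p n hp0 hp (ha0 i) j hj).2.2]).add
      (fc_psd V fun i => by linarith [(stair_bounds r n hr0 hr (hb0 i) j hj).2.2])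
  have main : ∀ j, j ≤ n →
      ((∑ i, min (a i) (p 0)) + ∑ i, min (b i) (r 0)) / (1 + p 0 + r 0) +
        ∑ l ∈ Finset.range j,
          ((p (l + 1) - p l) * nEig hP.1 (p (l + 1)) + (r (l + 1) - r l) * nEig hR.1 (r (l + 1))) /
            (1 + p (l + 1) + r (l + 1)) ≤ ld (G j) := by
    intro j
    induction j with
    | zero =>
      intro h0
      have hs1 : ∀ i, stair p 0 (a i) = min (a i) (p 0) := fun i => by simp [stair]
      have hs2 : ∀ i, stair r 0 (b i) = min (b i) (r 0) := fun i => by simp [stair]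
      have hD := (fc_psd U fun i => (stair_bounds p n hp0 hp (ha0 i) 0 h0).1).add
        (fc_psd V fun i => (stair_bounds r n hr0 hr (hb0 i) 0 h0).1)
      have h := ld_step (B := (1 : Matrix ι ι ℂ)) PosDef.one hD (c := 1 + p 0 + r 0)
        (by rw [← add_assoc]; exact hcap 0 h0)
      rw [← add_assoc, rtr_add, rtr_fc hU', rtr_fc hV'] at h
      simp only [hs1, hs2] at h
      simp only [Finset.range_zero, Finset.sum_empty, add_zero]
      have e : ld (1 : Matrix ι ι ℂ) = 0 := by simp [ld]
      rw [e, zero_add] at h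
      simpa [hG, hs1, hs2] using h
    | succ j ih =>
      intro hj
      have ih' := ih (by omega)
      set D := fc U (fun i => (p (j + 1) - p j) * (if p (j + 1) < a i then 1 else 0)) +
        fc V (fun i => (r (j + 1) - r j) * (if r (j + 1) < b i then 1 else 0)) with hD
      have hDp : D.PosSemidef := by
        refine (fc_psd U fun i => ?_).add (fc_psd V fun i => ?_)
        · exact mul_nonneg (by linarith [hp j (by omega)]) (by split_ifs <;> norm_num)
        · exact mul_nonneg (by linarith [hr j (by omega)]) (by split_ifs <;> norm_num)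
      have e : G (j + 1) = G j + D := by
        simp only [hG, hD, stair_succ, fc_add]
        abel
      have h := ld_step (hGpd j (by omega)) hDp (c := 1 + p (j + 1) + r (j + 1))
        (by rw [← e]; exact hcap (j + 1) hj)
      rw [← e] at h
      have et : rtr D = (p (j + 1) - p j) * nEig hP.1 (p (j + 1)) +
          (r (j + 1) - r j) * nEig hR.1 (r (j + 1)) := by
        rw [hD, rtr_add, rtr_fc hU', rtr_fc hV', nEig_eq_sum, nEig_eq_sum, ← Finset.mul_sum,
          ← Finset.mul_sum]
      rw [et] at h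
      rw [Finset.sum_range_succ]
      linarith
  have h1 := main n le_rfl
  set D := fc U (fun i => a i - stair p n (a i)) + fc V (fun i => b i - stair r n (b i)) with hD
  have hDp : D.PosSemidef :=
    (fc_psd U fun i => by linarith [(stair_bounds p n hp0 hp (ha0 i) n le_rfl).2.1]).add
      (fc_psd V fun i => by linarith [(stair_bounds r n hr0 hr (hb0 i) n le_rfl).2.1])
  have e : G n + D = 1 + P + R := by
    have e1 : fc U (fun i => a i) = P := hdP.symm
    have e2 : fc V (fun i => b i) = R := hdR.symm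
    rw [hD, fc_sub, fc_sub, e1, e2]
    simp only [hG]
    abel
  have hall : (1 + P + R).PosSemidef := (PosSemidef.one.add hP).add hR
  have hc : (((rtr (1 + P + R) : ℝ) : ℂ) • (1 : Matrix ι ι ℂ) - (G n + D)).PosSemidef := by
    rw [e]
    obtain ⟨W, hW, hW', hdW⟩ := herm_decomp hall.1
    have e3 : ((rtr (1 + P + R) : ℝ) : ℂ) • (1 : Matrix ι ι ℂ) - (1 + P + R)
        = fc W (fun i => rtr (1 + P + R) - hall.1.eigenvalues i) := by
      rw [fc_sub, fc_const hW]
      conv_lhs => arg 2; rw [hdW]
      rfl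
    rw [e3]
    refine fc_psd W fun i => ?_
    rw [rtr_eq_sum_eig hall.1]
    linarith [Finset.single_le_sum (fun j _ => hall.eigenvalues_nonneg j) (Finset.mem_univ i)]
  have h := ld_step (hGpd n le_rfl) hDp hc
  rw [e] at h
  have : 0 ≤ rtr D / rtr (1 + P + R) := div_nonneg (rtr_nonneg hDp) (rtr_nonneg hall)
  linarith

end

end Vale.Agent.P358
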