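import Vale.Agent.P358.Core
import Mathlib.Analysis.SpecialFunctions.Pow.Asymptotics

/-! # The block entropy inequality, final form -/

namespace Vale.Agent.P358

open Matrix Real MeasureTheory intervalIntegral Filter Topology
open scoped ComplexOrder Interval

noncomputable section

/-- Larger eigenvalue of the scalar comparison matrix. -/
def e1 (u v b d : ℝ) : ℝ := (u + b + v + d + √((u + b - v - d) ^ 2 + 4 * (u * v))) / 2

/-- Smaller eigenvalue of the scalar comparison matrix. -/
def e2 (u v b d : ℝ) : ℝ := (u + b + v + d - √((u + b - v - d) ^ 2 + 4 * (u * v))) / 2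

theorem e12_mul {u v b d : ℝ} (hu : 0 ≤ u) (hv : 0 ≤ v) :
    e1 u v b d * e2 u v b d = u * d + b * v + b * d := by
  have h := Real.sq_sqrt (show 0 ≤ (u + b - v - d) ^ 2 + 4 * (u * v) by positivity)
  unfold e1 e2
  nlinarith [h]

theorem e12_add (u v b d : ℝ) : e1 u v b d + e2 u v b d = u + b + v + d := by
  unfold e1 e2; ring

theorem e12_nonneg {u v b d : ℝ} (hu : 0 ≤ u) (hv : 0 ≤ v) (hb : 0 ≤ b) (hd : 0 ≤ d) :
    0 ≤ e1 u v b d ∧ 0 ≤ e2 u v b d := by
  have h1 : 0 ≤ e1 u v b d := by unfold e1; positivity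
  refine ⟨h1, ?_⟩
  by_contra h
  push Not at h
  have hm := e12_mul (b := b) (d := d) hu hv
  rcases eq_or_lt_of_le h1 with h0 | h0
  · have := e12_add u v b d
    linarith
  · have := mul_neg_of_pos_of_neg h0 h
    have h3 : 0 ≤ u * d + b * v + b * d := by positivity
    linarith

/-- The scalar integrand. -/
def gfun (u v b d t : ℝ) : ℝ := log (1 + u / (t + b) + v / (t + d))

/-- Its integral. -/
def Gfun (u v b d T : ℝ) : ℝ :=
  Flog T (e1 u v b d) + Flog T (e2 u v b d) - Flog T b - Flog T d

theorem gfun_eq {u v b d t : ℝ} (hu : 0 ≤ u) (hv : 0 ≤ v) (hb : 0 ≤ b) (hd : 0 ≤ d) (ht : 0 < t) :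
    log (t + e1 u v b d) + log (t + e2 u v b d) - log (t + b) - log (t + d) = gfun u v b d t := by
  obtain ⟨h1, h2⟩ := e12_nonneg hu hv hb hd
  have a1 : 0 < t + b := by linarith
  have a2 : 0 < t + d := by linarith
  have a3 : 0 < t + e1 u v b d := by linarith
  have a4 : 0 < t + e2 u v b d := by linarith
  rw [gfun, ← Real.log_mul a3.ne' a4.ne', ← Real.log_div (by positivity) a1.ne',
    ← Real.log_div (by positivity) a2.ne']
  congr 1
  have hm := e12_mul (b := b) (d := d) hu hv
  have ha := e12_add u v b d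
  field_simp
  linear_combination t * ha + hm

theorem gfun_intble {u v b d T : ℝ} (hu : 0 ≤ u) (hv : 0 ≤ v) (hb : 0 ≤ b) (hd : 0 ≤ d)
    (hT : 0 ≤ T) :
    IntervalIntegrable (gfun u v b d) volume 0 T ∧
      ∫ t in (0 : ℝ)..T, gfun u v b d t = Gfun u v b d T := by
  have i1 := intble_log_add T (e1 u v b d)
  have i2 := intble_log_add T (e2 u v b d)
  have i3 := intble_log_add T b
  have i4 := intble_log_add T d
  have e : ∀ t ∈ Ι (0 : ℝ) T, log (t + e1 u v b d) + log (t + e2 u v b d) - log (t + b)
      - log (t + d) = gfun u v b d t := fun t ht => by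
    rw [Set.uIoc_of_le hT] at ht
    exact gfun_eq hu hv hb hd ht.1
  refine ⟨(((i1.add i2).sub i3).sub i4).congr e, ?_⟩
  rw [← intervalIntegral.integral_congr_ae (Filter.Eventually.of_forall e),
    intervalIntegral.integral_sub ((i1.add i2).sub i3) i4,
    intervalIntegral.integral_sub (i1.add i2) i3, intervalIntegral.integral_add i1 i2,
    int_log_add, int_log_add, int_log_add, int_log_add]
  rfl

theorem gfun_anti {u v b d : ℝ} (hu : 0 ≤ u) (hv : 0 ≤ v) (hb : 0 ≤ b) (hd : 0 ≤ d) :
    AntitoneOn (gfun u v b d) (Set.Ioi 0) := by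
  intro s hs t ht hst
  simp only [Set.mem_Ioi] at hs ht
  unfold gfun
  have h1 : u / (t + b) ≤ u / (s + b) := div_le_div_of_nonneg_left hu (by linarith) (by linarith)
  have h2 : v / (t + d) ≤ v / (s + d) := div_le_div_of_nonneg_left hv (by linarith) (by linarith)
  have h3 : 0 ≤ u / (t + b) := div_nonneg hu (by linarith)
  have h4 : 0 ≤ v / (t + d) := div_nonneg hv (by linarith)
  exact Real.log_le_log (by linarith) (by linarith)

theorem abel_sum (s L : ℕ → ℝ) (h : ℝ) :
    ∀ m, (∀ j < m, s (j + 1) = s j - h) →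
      ∑ j ∈ Finset.range m, s (j + 1) * (L (j + 1) - L j)
        = s m * L m - s 0 * L 0 + h * ∑ j ∈ Finset.range m, L j := by
  intro m
  induction m with
  | zero => intro _; simp
  | succ m ih =>
    intro hs
    rw [Finset.sum_range_succ, ih fun j hj => hs j (by omega), Finset.sum_range_succ]
    have := hs m (by omega)
    linear_combination -(L m) * this

theorem scalar_sum {u v b d : ℝ} (hu : 0 ≤ u) (hv : 0 ≤ v) (hb : 0 ≤ b) (hd : 0 ≤ d) {N : ℕ}
    (hN : 1 ≤ N) (s p r : ℕ → ℝ) (hs : ∀ j, s j = ((N : ℝ) ^ 2 - j) / N)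
    (hp : ∀ j, p j = u / (s j + b)) (hr : ∀ j, r j = v / (s j + d)) :
    Gfun u v b d (N + 1 / N) - Gfun u v b d (1 / N) - N * (p 0 + r 0) - (1 + 2 * log N) / N
      ≤ ∑ j ∈ Finset.range (N ^ 2 - 1),
        (((p (j + 1) - p j) + (r (j + 1) - r j)) * s (j + 1)) / (1 + p (j + 1) + r (j + 1)) := by
  have hN' : (0 : ℝ) < N := by exact_mod_cast hN
  set n := N ^ 2 - 1 with hn
  have hn1 : (n : ℝ) + 1 = (N : ℝ) ^ 2 := by
    have : n + 1 = N ^ 2 := by
      have : 1 ≤ N ^ 2 := Nat.one_le_pow _ _ (by omega)
      omega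
    exact_mod_cast this
  set h : ℝ := 1 / N with hh
  set L : ℕ → ℝ := fun j => log (1 + p j + r j) with hL
  have hstep : ∀ j, s (j + 1) = s j - h := fun j => by
    rw [hs, hs, hh]; push_cast; ring
  have hspos : ∀ j ≤ n, 0 < s j := fun j hj => by
    rw [hs]
    have : (j : ℝ) ≤ n := by exact_mod_cast hj
    apply div_pos <;> linarith
  have hp0 : ∀ j ≤ n, 0 ≤ p j ∧ 0 ≤ r j := fun j hj => by
    have := hspos j hj
    constructor
    · rw [hp]; positivity
    · rw [hr]; positivity
  have key : ∀ j ∈ Finset.range n, s (j + 1) * (L (j + 1) - L j) - h / (n - j) ≤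
      (((p (j + 1) - p j) + (r (j + 1) - r j)) * s (j + 1)) / (1 + p (j + 1) + r (j + 1)) := by
    intro j hj
    have hj' := Finset.mem_range.mp hj
    have hs1 := hspos (j + 1) hj'
    have hs0 := hspos j hj'.le
    obtain ⟨a0, b0⟩ := hp0 j hj'.le
    obtain ⟨a1, b1⟩ := hp0 (j + 1) hj'
    set y := 1 + p j + r j with hy
    set y' := 1 + p (j + 1) + r (j + 1) with hy'
    have hy0 : 0 < y := by linarith
    have hy1 : 0 < y' := by linarith
    have hh0 : 0 < h := by positivity
    have inc : ∀ (w c : ℝ), 0 ≤ w → 0 ≤ c →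
        w / (s (j + 1) + c) - w / (s j + c) ≤ w / (s j + c) * (h / s (j + 1)) ∧
        0 ≤ w / (s (j + 1) + c) - w / (s j + c) := by
      intro w c hw hc
      have e : w / (s (j + 1) + c) - w / (s j + c) = w / (s j + c) * (h / (s (j + 1) + c)) := by
        have : s j = s (j + 1) + h := by linarith [hstep j]
        rw [this]
        field_simp
        ring
      rw [e]
      refine ⟨?_, by positivity⟩
      gcongr
      linarith
    obtain ⟨i1, i1'⟩ := inc u b hu hb
    obtain ⟨i2, i2'⟩ := inc v d hv hd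
    rw [← hp, ← hp] at i1 i1'
    rw [← hr, ← hr] at i2 i2'
    have hΔ : y' - y ≤ y * (h / s (j + 1)) := by
      have : 0 ≤ h / s (j + 1) := by positivity
      rw [hy, hy']; nlinarith
    have hΔ0 : 0 ≤ y' - y := by rw [hy, hy']; linarith
    set x := (y' - y) / y with hx
    have hx0 : 0 ≤ x := div_nonneg hΔ0 hy0.le
    have hx1 : x ≤ h / s (j + 1) := by rw [hx, div_le_iff₀ hy0]; linarith
    have hlog : L (j + 1) - L j ≤ (y' - y) / y' + x ^ 2 := by
      have e : L (j + 1) - L j = log (y' / y) := by rw [Real.log_div hy1.ne' hy0.ne']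
      rw [e]
      refine le_trans (Real.log_le_sub_one_of_pos (by positivity)) ?_
      have e2 : y' / y - 1 = x := by rw [hx]; field_simp
      rw [e2]
      have e3 : (y' - y) / y' = x / (1 + x) := by rw [hx]; field_simp; ring
      rw [e3]
      have : x - x / (1 + x) = x ^ 2 / (1 + x) := by field_simp; ring
      have : x ^ 2 / (1 + x) ≤ x ^ 2 := div_le_self (sq_nonneg x) (by linarith)
      linarith
    have hsx : s (j + 1) * x ^ 2 ≤ h / (n - j) := by
      have hx2 : x ^ 2 ≤ (h / s (j + 1)) ^ 2 := pow_le_pow_left₀ hx0 hx1 2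
      have es : s (j + 1) = h * (n - j) := by
        rw [hs, hh]; push_cast; rw [← hn1]; ring
      have hnj : (1 : ℝ) ≤ (n : ℝ) - j := by
        have : (j : ℝ) + 1 ≤ n := by exact_mod_cast hj'
        linarith
      calc s (j + 1) * x ^ 2 ≤ s (j + 1) * (h / s (j + 1)) ^ 2 :=
            mul_le_mul_of_nonneg_left hx2 hs1.le
        _ = h / (n - j) := by
            rw [es]; field_simp
    have := mul_le_mul_of_nonneg_left hlog hs1.le
    have e4 : ((p (j + 1) - p j) + (r (j + 1) - r j)) * s (j + 1) / y'
        = s (j + 1) * ((y' - y) / y') := by rw [hy, hy']; ring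
    rw [e4]
    linarith
  refine le_trans ?_ (Finset.sum_le_sum key)
  rw [Finset.sum_sub_distrib, abel_sum s L h n fun j _ => hstep j]
  have hsn : s n = h := by rw [hs, hh, ← hn1]; ring
  have hs0 : s 0 = N := by rw [hs]; simp; field_simp
  rw [hsn, hs0]
  have hharm : ∑ j ∈ Finset.range n, h / ((n : ℝ) - j) ≤ (1 + 2 * log N) / N := by
    have e : ∑ j ∈ Finset.range n, h / ((n : ℝ) - j) = h * (harmonic n : ℝ) := by
      rw [harmonic, Rat.cast_sum, Finset.mul_sum,
        ← Finset.sum_range_reflect (fun j => h / ((n : ℝ) - j))]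
      refine Finset.sum_congr rfl fun j hj => ?_
      have hj' := Finset.mem_range.mp hj
      have hc : ((n - 1 - j : ℕ) : ℝ) + j + 1 = n := by
        exact_mod_cast (show n - 1 - j + j + 1 = n by omega)
      push_cast
      rw [div_eq_mul_inv]
      congr 2
      linarith
    rw [e, hh, div_mul_eq_mul_div, one_mul]
    gcongr
    refine le_trans (harmonic_le_one_add_log n) ?_
    rcases Nat.eq_zero_or_pos n with h0 | h0
    · rw [h0]; simp
      positivity
    · have : log (n : ℝ) ≤ log ((N : ℝ) ^ 2) :=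
        Real.log_le_log (by exact_mod_cast h0) (by linarith)
      rw [Real.log_pow] at this
      push_cast at this
      linarith
  have hL0 : N * L 0 ≤ N * (p 0 + r 0) := by
    obtain ⟨a0, b0⟩ := hp0 0 (Nat.zero_le _)
    refine mul_le_mul_of_nonneg_left ?_ hN'.le
    have := Real.log_le_sub_one_of_pos (x := 1 + p 0 + r 0) (by linarith)
    simp only [hL]
    linarith
  have hint : Gfun u v b d (N + 1 / N) - Gfun u v b d (1 / N)
      ≤ h * ∑ j ∈ Finset.range (n + 1), L j := by
    have hgi := fun T (hT : (0 : ℝ) ≤ T) => gfun_intble hu hv hb hd hT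
    have e : ∫ t in h..(N : ℝ) + h, gfun u v b d t
        = Gfun u v b d (N + h) - Gfun u v b d h := by
      rw [← (hgi (N + h) (by positivity)).2, ← (hgi h (by positivity)).2,
        intervalIntegral.integral_interval_sub_left (hgi _ (by positivity)).1
          (hgi _ (by positivity)).1]
    rw [hh] at e ⊢
    rw [← e]
    have hanti : AntitoneOn (fun τ => gfun u v b d (h * τ)) (Set.Icc 1 (1 + ((n + 1 : ℕ) : ℝ))) := by
      intro a ha c hc hac
      have hh0 : 0 < h := by positivity
      exact gfun_anti hu hv hb hd (by simp; nlinarith [ha.1]) (by simp; nlinarith [hc.1])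
        (mul_le_mul_of_nonneg_left hac hh0.le)
    have hsum := hanti.integral_le_sum
    have e5 := intervalIntegral.smul_integral_comp_mul_left (a := (1 : ℝ))
      (b := 1 + ((n + 1 : ℕ) : ℝ)) (gfun u v b d) h
    rw [smul_eq_mul] at e5
    have e6 : h * (1 + ((n + 1 : ℕ) : ℝ)) = N + h := by
      push_cast; rw [hn1, hh]; field_simp; ring
    rw [mul_one, e6] at e5
    rw [← hh, ← e5]
    refine mul_le_mul_of_nonneg_left (le_trans hsum (le_of_eq ?_)) (by positivity)
    rw [← Finset.sum_range_reflect L]
    refine Finset.sum_congr rfl fun i hi => ?_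
    have hi' := Finset.mem_range.mp hi
    simp only [hL, gfun, hp, hr, hs]
    have e7 : h * (1 + (i : ℝ)) = ((N : ℝ) ^ 2 - ((n + 1 - 1 - i : ℕ) : ℝ)) / N := by
      rw [Nat.cast_sub (by omega)]
      push_cast
      rw [hh, ← hn1]
      field_simp
      simp
    rw [e7]
  rw [Finset.sum_range_succ] at hint
  linarith

variable {ι κ μ : Type} [Fintype ι] [DecidableEq ι] [Fintype κ] [DecidableEq κ]
  [Fintype μ] [DecidableEq μ]

set_option maxHeartbeats 1600000 in
/-- The entropy inequality for coherent blocks. -/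
theorem gap_blk (A : Matrix ι μ ℂ) (C : Matrix κ μ ℂ) {β : Matrix ι ι ℂ} {δ : Matrix κ κ ℂ}
    (hβ : β.PosSemidef) (hδ : δ.PosSemidef) (hu : 0 < rtr (A * Aᴴ)) (hv : 0 < rtr (C * Cᴴ)) :
    gap (A * Aᴴ) + gap (C * Cᴴ) + gap β + gap δ +
      (negMulLog (e1 (rtr (A * Aᴴ)) (rtr (C * Cᴴ)) (rtr β) (rtr δ)) +
        negMulLog (e2 (rtr (A * Aᴴ)) (rtr (C * Cᴴ)) (rtr β) (rtr δ)) -
        negMulLog (rtr (A * Aᴴ) + rtr β + rtr (C * Cᴴ) + rtr δ))
      ≤ gap (blk A C β δ) := by
  set u := rtr (A * Aᴴ) with hud
  set v := rtr (C * Cᴴ) with hvd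
  set b := rtr β with hbd
  set d := rtr δ with hdd
  have hb : 0 ≤ b := rtr_nonneg hβ
  have hd : 0 ≤ d := rtr_nonneg hδ
  have hX := blk_psd A C hβ hδ
  have htr : rtr (blk A C β δ) = u + b + v + d := by
    rw [hud, hbd, hvd, hdd, rtr, rtr, rtr, rtr, rtr, blk]
    simp [Matrix.trace, Fintype.sum_sum_type, Finset.sum_add_distrib]; ring
  set SX := ent (blk A C β δ)
  set Sc := negMulLog (e1 u v b d) + negMulLog (e2 u v b d) - negMulLog b - negMulLog d with hSc
  set U : ℕ → ℝ := fun N =>
    ((u * (1 + log ((N + b + d) * (u / (N + b)))) + ent (A * Aᴴ)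
        - Fintype.card ι * (u / (N + b) * b)) +
      (v * (1 + log ((N + b + d) * (v / (N + d)))) + ent (C * Cᴴ)
        - Fintype.card κ * (v / (N + d) * d))) / (1 + u / (N + b) + v / (N + d))
      + Sc + (u + v) * (log (N + 1 / N) - log (N + b + d)) - (b ^ 2 + d ^ 2) / (N + 1 / N)
      - Gfun u v b d (1 / N) - (u + v) - (1 + 2 * log N) / N
      - (u + b + v + d) ^ 2 / (N + b + d) with hU
  have hbound : ∀ N : ℕ, 1 ≤ N → U N ≤ SX - ent β - ent δ := by
    intro N hN
    have hN' : (0 : ℝ) < N := by exact_mod_cast hN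
    set s : ℕ → ℝ := fun j => ((N : ℝ) ^ 2 - j) / N with hs
    set p : ℕ → ℝ := fun j => u / (s j + b) with hp
    set r : ℕ → ℝ := fun j => v / (s j + d) with hr
    set n := N ^ 2 - 1 with hn
    set T : ℝ := N + b + d with hTd
    have hn1 : (n : ℝ) + 1 = (N : ℝ) ^ 2 := by
      have : n + 1 = N ^ 2 := by
        have : 1 ≤ N ^ 2 := Nat.one_le_pow _ _ (by omega)
        omega
      exact_mod_cast this
    have hspos : ∀ j ≤ n, 0 < s j := fun j hj => by
      rw [hs]
      have : (j : ℝ) ≤ n := by exact_mod_cast hj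
      apply div_pos <;> linarith
    have hstep : ∀ j, s (j + 1) ≤ s j := fun j => by
      simp only [hs]; push_cast; gcongr; linarith
    have hs0 : s 0 = N := by simp [hs]; field_simp
    have hT : 0 < T := by rw [hTd]; linarith
    have low := Jt_lower A C hβ hδ p r s n (T := T)
      (by have := hspos 0 (Nat.zero_le _); simp only [hp]; positivity)
      (by have := hspos 0 (Nat.zero_le _); simp only [hr]; positivity)
      (fun j hj => by
        have := hspos (j + 1) hj
        simp only [hp]
        exact div_le_div_of_nonneg_left hu.le (by linarith) (by linarith [hstep j]))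
      (fun j hj => by
        have := hspos (j + 1) hj
        simp only [hr]
        exact div_le_div_of_nonneg_left hv.le (by linarith) (by linarith [hstep j]))
      (fun j hj => by
        have := hspos (j + 1) hj
        simp only [hp, ← hud, ← hbd]
        field_simp
        ring)
      (fun j hj => by
        have := hspos (j + 1) hj
        simp only [hr, ← hvd, ← hdd]
        field_simp
        ring)
      (by
        simp only [hp, ← hud, hs0]
        have e : u / (u / ((N : ℝ) + b)) = (N : ℝ) + b := by field_simp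
        rw [e, hTd]; linarith)
      (by
        simp only [hr, ← hvd, hs0]
        have e : v / (v / ((N : ℝ) + d)) = (N : ℝ) + d := by field_simp
        rw [e, hTd]; linarith)
      hT
    have sc := scalar_sum hu.le hv.le hb hd hN s p r (fun j => rfl) (fun j => rfl) (fun j => rfl)
    rw [(Jt_int A C hβ hδ hT.le).2] at low
    have f1 := (sum_Flog_expand hX hT).2
    have f2 := (sum_Flog_expand hβ hT).1
    have f3 := (sum_Flog_expand hδ hT).1
    rw [htr] at f1
    rw [Fintype.card_sum] at f1
    push_cast at f1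
    obtain ⟨g1, g2⟩ := e12_nonneg hu.le hv.le hb hd
    have hT' : (0 : ℝ) < N + 1 / N := by positivity
    have g3 := (Flog_expand hT' g1).1
    have g4 := (Flog_expand hT' g2).1
    have g5 := (Flog_expand hT' hb).2
    have g6 := (Flog_expand hT' hd).2
    have g7 := e12_add u v b d
    have hNp : (N : ℝ) * (p 0 + r 0) ≤ u + v := by
      simp only [hp, hr, hs0]
      have h1 : (N : ℝ) * (u / (N + b)) ≤ u := by
        rw [← mul_div_assoc, div_le_iff₀ (by linarith only [hN', hb]), mul_add, mul_comm u]
        have := mul_nonneg hu.le hb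
        linarith only [this]
      have h2 : (N : ℝ) * (v / (N + d)) ≤ v := by
        rw [← mul_div_assoc, div_le_iff₀ (by linarith only [hN', hd]), mul_add, mul_comm v]
        have := mul_nonneg hv.le hd
        linarith only [this]
      rw [mul_add]; linarith
    simp only [hp, hr, hs0, ← hud, ← hvd, ← hbd, ← hdd] at low
    simp only [← hbd] at f2
    simp only [← hdd] at f3
    simp only [hp, hr, hs0] at hNp sc
    rw [hU]
    simp only [Gfun] at sc ⊢
    rw [add_div]
    rw [add_div] at low
    rw [← hn] at sc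
    rw [add_div (b ^ 2) (d ^ 2)]
    rw [hSc]
    rw [hTd] at low f1 f2 f3
    have hlog : (e1 u v b d + e2 u v b d - b - d) * (log ((N : ℝ) + 1 / N) + 1)
        = (u + v) * (log ((N : ℝ) + 1 / N) + 1) := by rw [g7]; ring
    linarith
  have hlim : Tendsto U atTop (𝓝 (u * (1 + log u) + ent (A * Aᴴ) + (v * (1 + log v) + ent (C * Cᴴ))
      + Sc - (u + v))) := by
    have hNat : Tendsto (fun N : ℕ => (N : ℝ)) atTop atTop := tendsto_natCast_atTop_atTop
    have q : ∀ c : ℝ, Tendsto (fun N : ℕ => (N : ℝ) + c) atTop atTop := fun c =>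
      tendsto_atTop_add_const_right _ c hNat
    have z : ∀ w c : ℝ, Tendsto (fun N : ℕ => w / ((N : ℝ) + c)) atTop (𝓝 0) := fun w c =>
      (q c).const_div_atTop w
    have z1 : Tendsto (fun N : ℕ => 1 / (N : ℝ)) atTop (𝓝 0) := hNat.const_div_atTop 1
    have zl : Tendsto (fun N : ℕ => (1 + 2 * log N) / (N : ℝ)) atTop (𝓝 0) := by
      have h := (Real.isLittleO_log_id_atTop.tendsto_div_nhds_zero).comp hNat
      have h' := z1.add (h.const_mul 2)
      rw [mul_zero, add_zero] at h'
      refine h'.congr fun N => ?_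
      simp only [Function.comp_apply, id]
      ring
    have r1 : ∀ w c c' : ℝ, 0 < w → Tendsto
        (fun N : ℕ => log (((N : ℝ) + c) * (w / ((N : ℝ) + c')))) atTop (𝓝 (log w)) := by
      intro w c c' hw
      refine (Real.continuousAt_log hw.ne').tendsto.comp ?_
      have h := ((z (c - c') c').const_add 1).mul_const w
      rw [add_zero, one_mul] at h
      refine h.congr' ?_
      filter_upwards [(q c').eventually_gt_atTop 0] with N hN
      field_simp
      ring
    have r2 : Tendsto (fun N : ℕ => log ((N : ℝ) + 1 / N) - log ((N : ℝ) + b + d)) atTop (𝓝 0) := by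
      have h1 : Tendsto (fun N : ℕ => log (1 + 1 / (N : ℝ) * (1 / N))) atTop (𝓝 0) := by
        have h := (z1.mul z1).const_add 1
        rw [mul_zero, add_zero] at h
        have h' := (Real.continuousAt_log (by norm_num : (1 : ℝ) ≠ 0)).tendsto.comp h
        rw [Real.log_one] at h'
        exact h'
      have h2 : Tendsto (fun N : ℕ => log (1 + (b + d) / (N : ℝ))) atTop (𝓝 0) := by
        have h := (hNat.const_div_atTop (b + d)).const_add 1
        rw [add_zero] at h
        have h' := (Real.continuousAt_log (by norm_num : (1 : ℝ) ≠ 0)).tendsto.comp h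
        rw [Real.log_one] at h'
        exact h'
      have h := h1.sub h2
      rw [sub_zero] at h
      refine h.congr' ?_
      filter_upwards [hNat.eventually_gt_atTop 0] with N hN
      have e3 : (N : ℝ) + 1 / N = N * (1 + 1 / N * (1 / N)) := by field_simp
      have e4 : (N : ℝ) + b + d = N * (1 + (b + d) / N) := by field_simp; ring
      rw [e3, e4, Real.log_mul hN.ne' (by positivity), Real.log_mul hN.ne' (by positivity)]
      ring
    have r3 : Tendsto (fun N : ℕ => Gfun u v b d (1 / N)) atTop (𝓝 0) := by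
      have hc : Continuous (Gfun u v b d) := by
        have : ∀ x : ℝ, Continuous fun T => Flog T x := fun x => by
          unfold Flog
          exact ((continuous_mul_log.comp (continuous_id.add continuous_const)).add
            continuous_const).sub continuous_id
        exact (((this _).add (this _)).sub (this _)).sub (this _)
      have h0 : Gfun u v b d 0 = 0 := by simp [Gfun, Flog, negMulLog]
      have := (hc.tendsto 0).comp z1
      rw [h0] at this
      exact this
    have r4 : Tendsto (fun N : ℕ => (b ^ 2 + d ^ 2) / ((N : ℝ) + 1 / N)) atTop (𝓝 0) := by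
      refine Tendsto.const_div_atTop ?_ _
      exact hNat.atTop_add z1
    have r5 : Tendsto (fun N : ℕ => (u + b + v + d) ^ 2 / ((N : ℝ) + b + d)) atTop (𝓝 0) :=
      (z ((u + b + v + d) ^ 2) (b + d)).congr fun N => by rw [add_assoc ((N : ℝ))]
    have ra := (((((r1 u (b + d) b hu).const_add 1).const_mul u).add_const
        (ent (A * Aᴴ))).sub (((z u b).mul_const b).const_mul (Fintype.card ι : ℝ))).add
      (((((r1 v (b + d) d hv).const_add 1).const_mul v).add_const
        (ent (C * Cᴴ))).sub (((z v d).mul_const d).const_mul (Fintype.card κ : ℝ)))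
    have rb := ((z u b).const_add 1).add (z v d)
    have h := ((((((ra.div rb (by norm_num)).add_const Sc).add (r2.const_mul (u + v))).sub r4).sub
      r3).sub_const (u + v)).sub zl |>.sub r5
    simp only [zero_mul, mul_zero, add_zero, sub_zero, div_one] at h
    rw [hU]
    refine (h.congr fun N => ?_)
    simp only [Pi.div_apply, add_assoc]
  have hfin := le_of_tendsto hlim (eventually_atTop.mpr ⟨1, hbound⟩)
  simp only [gap, htr, ← hud, ← hvd, ← hbd, ← hdd]
  rw [hSc] at hfin
  simp only [negMulLog] at hfin ⊢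
  linarith

end

end Vale.Agent.P358
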